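import Mathlib

/-!
# P078: definitions (partitions, pinchings, so-paving) for operators on a Hilbert space

These follow the problem file word for word, for a set `A` of bounded operators on a complex
Hilbert space `H` inside a set `M` of bounded operators.
-/

namespace Vale.Agent.Lib.P078

variable {H : Type*} [NormedAddCommGroup H] [InnerProductSpace ℂ H] [CompleteSpace H]

/-- A partition with `r` pieces in `A`: mutually orthogonal (self-adjoint) projections of `A`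
with sum `1`; zero pieces are allowed. -/
def IsPartition (A : Set (H →L[ℂ] H)) {r : ℕ} (p : Fin r → H →L[ℂ] H) : Prop :=
  (∀ i, p i ∈ A ∧ IsStarProjection (p i)) ∧ (∀ i j, i ≠ j → p i * p j = 0) ∧ ∑ i, p i = 1

/-- The pinching `S_P(x) = ∑ i, p i * x * p i`. -/
def pinching {r : ℕ} (p : Fin r → H →L[ℂ] H) (x : H →L[ℂ] H) : H →L[ℂ] H :=
  ∑ i, p i * x * p i

/-- `x` is `(ε, r)` so-pavable over `A` (inside `M`): for every finite `F ⊆ H` and `δ > 0` there
are a partition `p` in `A` with `r` pieces, a self-adjoint `a ∈ A` with `‖a‖ ≤ ‖x‖` and a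
projection `q ∈ M` with `‖(1 - q) ξ‖ < δ` for `ξ ∈ F` and `‖q (S_p(x) - a) q‖ ≤ ε ‖x‖`. -/
def SoPavable (M A : Set (H →L[ℂ] H)) (x : H →L[ℂ] H) (ε : ℝ) (r : ℕ) : Prop :=
  ∀ (F : Finset H) (δ : ℝ), 0 < δ →
    ∃ (p : Fin r → H →L[ℂ] H) (a q : H →L[ℂ] H),
      IsPartition A p ∧ a ∈ A ∧ IsSelfAdjoint a ∧ ‖a‖ ≤ ‖x‖ ∧ q ∈ M ∧ IsStarProjection q ∧
        (∀ ξ ∈ F, ‖(1 - q) ξ‖ < δ) ∧ ‖q * (pinching p x - a) * q‖ ≤ ε * ‖x‖

/-- The paving size `n_{A ⊆ M}(ε)`: the least `r ≥ 1` such that every self-adjoint `x ∈ M` is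
`(ε, r)` so-pavable over `A`.  (If there were no such `r` this would be `0`, standing for the
value `∞` of the problem file.) -/
noncomputable def pavingSize (M A : Set (H →L[ℂ] H)) (ε : ℝ) : ℕ :=
  sInf {r : ℕ | 1 ≤ r ∧ ∀ x ∈ M, IsSelfAdjoint x → SoPavable M A x ε r}

end Vale.Agent.Lib.P078
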