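import Mathlib
import Vale.Agent.Lib.P078.Defs

/-!
# P078 helper: finite orthogonal families of projections on a Hilbert space
-/

namespace Vale.Agent.Lib.P078

open scoped InnerProductSpace

set_option linter.unusedSectionVars false

variable {H : Type*} [NormedAddCommGroup H] [InnerProductSpace ℂ H] [CompleteSpace H]

lemma sa_inner {p : H →L[ℂ] H} (hp : IsSelfAdjoint p) (y z : H) :
    ⟪p y, z⟫_ℂ = ⟪y, p z⟫_ℂ := by
  have h := ContinuousLinearMap.adjoint_inner_left p z y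
  rw [hp.adjoint_eq] at h
  exact h

lemma isSelfAdjoint_of_inner {p : H →L[ℂ] H} (h : ∀ y z : H, ⟪p y, z⟫_ℂ = ⟪y, p z⟫_ℂ) :
    IsSelfAdjoint p := by
  rw [ContinuousLinearMap.isSelfAdjoint_iff_isSymmetric]
  exact h

lemma proj_norm_le {q : H →L[ℂ] H} (hq : IsStarProjection q) (u : H) : ‖q u‖ ≤ ‖u‖ := by
  have hid : q (q u) = q u := by
    have h2 := congrArg (fun T : H →L[ℂ] H => T u) hq.isIdempotentElem
    simpa using h2
  have h1 : ‖q u‖ ^ 2 = (⟪u, q u⟫_ℂ).re := by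
    rw [← hid, ← sa_inner hq.isSelfAdjoint, hid]
    have := inner_self_eq_norm_sq (𝕜 := ℂ) (q u)
    simpa using this.symm
  have h2 : (⟪u, q u⟫_ℂ).re ≤ ‖u‖ * ‖q u‖ := by
    calc (⟪u, q u⟫_ℂ).re ≤ ‖⟪u, q u⟫_ℂ‖ := Complex.re_le_norm _
      _ ≤ ‖u‖ * ‖q u‖ := norm_inner_le_norm _ _
  by_contra hcon
  rw [not_le] at hcon
  have hpos : 0 < ‖q u‖ := lt_of_le_of_lt (norm_nonneg _) hcon
  nlinarith

lemma proj_opNorm_le {q : H →L[ℂ] H} (hq : IsStarProjection q) : ‖q‖ ≤ 1 :=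
  ContinuousLinearMap.opNorm_le_bound _ zero_le_one (fun u => by simpa using proj_norm_le hq u)

/-- an orthogonal family of projections with sum one, indexed by a finite type -/
def OrthoFam {ι : Type*} [Fintype ι] (e : ι → H →L[ℂ] H) : Prop :=
  (∀ i, IsStarProjection (e i)) ∧ (∀ i j, i ≠ j → e i * e j = 0) ∧ ∑ i, e i = 1

section fam

variable {ι : Type*} [Fintype ι] {e : ι → H →L[ℂ] H}

lemma OrthoFam.sa (he : OrthoFam e) (i : ι) : IsSelfAdjoint (e i) := (he.1 i).isSelfAdjoint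

lemma OrthoFam.idem (he : OrthoFam e) (i : ι) (u : H) : e i (e i u) = e i u := by
  have h2 := congrArg (fun T : H →L[ℂ] H => T u) (he.1 i).isIdempotentElem
  simpa using h2

lemma OrthoFam.apply_apply_of_ne (he : OrthoFam e) {i j : ι} (h : i ≠ j) (u : H) :
    e i (e j u) = 0 := by
  have h2 := congrArg (fun T : H →L[ℂ] H => T u) (he.2.1 i j h)
  simpa using h2

lemma OrthoFam.sum_apply (he : OrthoFam e) (u : H) : ∑ i, e i u = u := by
  have h2 := congrArg (fun T : H →L[ℂ] H => T u) he.2.2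
  simpa using h2

lemma OrthoFam.inner_of_ne (he : OrthoFam e) {i j : ι} (h : i ≠ j) (u w : H) :
    ⟪e i u, e j w⟫_ℂ = 0 := by
  rw [sa_inner (he.sa i), he.apply_apply_of_ne h, inner_zero_right]

lemma OrthoFam.inner_left (he : OrthoFam e) (i : ι) (u w : H) :
    ⟪e i u, w⟫_ℂ = ⟪e i u, e i w⟫_ℂ := by
  rw [← sa_inner (he.sa i) (e i u) w, he.idem]

lemma OrthoFam.inner_right (he : OrthoFam e) (i : ι) (u w : H) :
    ⟪u, e i w⟫_ℂ = ⟪e i u, e i w⟫_ℂ := by
  rw [sa_inner (he.sa i) u (e i w), he.idem]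

lemma OrthoFam.inner_eq_sum (he : OrthoFam e) (u w : H) :
    ⟪u, w⟫_ℂ = ∑ i, ⟪e i u, e i w⟫_ℂ := by
  conv_lhs => rw [← he.sum_apply u]
  rw [sum_inner]
  exact Finset.sum_congr rfl (fun i _ => he.inner_left i u w)

lemma OrthoFam.norm_sq_eq_sum (he : OrthoFam e) (u : H) : ‖u‖ ^ 2 = ∑ i, ‖e i u‖ ^ 2 := by
  have h := congrArg Complex.re (he.inner_eq_sum u u)
  rw [Complex.re_sum] at h
  have h1 : ∀ z : H, (⟪z, z⟫_ℂ).re = ‖z‖ ^ 2 := fun z => by
    simpa using inner_self_eq_norm_sq (𝕜 := ℂ) z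
  simp only [h1] at h
  exact h

lemma OrthoFam.norm_apply_le (he : OrthoFam e) (i : ι) (u : H) : ‖e i u‖ ≤ ‖u‖ :=
  proj_norm_le (he.1 i) u

/-- a real combination of the projections has norm at most the largest coefficient -/
lemma OrthoFam.norm_sum_smul_le (he : OrthoFam e) [DecidableEq ι] (t : ι → ℝ) (C : ℝ)
    (hC0 : 0 ≤ C) (hC : ∀ i, |t i| ≤ C) : ‖∑ i, (t i : ℂ) • e i‖ ≤ C := by
  refine ContinuousLinearMap.opNorm_le_bound _ hC0 (fun u => ?_)
  have hj : ∀ j, e j ((∑ i, (t i : ℂ) • e i) u) = (t j : ℂ) • e j u := by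
    intro j
    simp only [_root_.sum_apply, _root_.smul_apply, map_sum, map_smul]
    rw [Finset.sum_eq_single j]
    · rw [he.idem]
    · intro i _ hij
      rw [he.apply_apply_of_ne (Ne.symm hij), smul_zero]
    · intro h; exact absurd (Finset.mem_univ j) h
  have h1 : ‖(∑ i, (t i : ℂ) • e i) u‖ ^ 2 ≤ (C * ‖u‖) ^ 2 := by
    rw [he.norm_sq_eq_sum ((∑ i, (t i : ℂ) • e i) u), mul_pow, he.norm_sq_eq_sum u,
      Finset.mul_sum]
    refine Finset.sum_le_sum (fun j _ => ?_)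
    rw [hj j, norm_smul, mul_pow]
    have : ‖(t j : ℂ)‖ ^ 2 ≤ C ^ 2 := by
      rw [Complex.norm_real, Real.norm_eq_abs]
      exact pow_le_pow_left₀ (abs_nonneg _) (hC j) 2
    exact mul_le_mul_of_nonneg_right this (by positivity)
  exact le_of_sq_le_sq h1 (by positivity)

/-- the colour classes of a colouring -/
noncomputable def colourProj (e : ι → H →L[ℂ] H) {r : ℕ} (c : ι → Fin r) (k : Fin r) :
    H →L[ℂ] H :=
  ∑ i, if c i = k then e i else 0

lemma colourProj_apply (e : ι → H →L[ℂ] H) {r : ℕ} (c : ι → Fin r) (k : Fin r) (u : H) :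
    colourProj e c k u = ∑ i, if c i = k then e i u else 0 := by
  unfold colourProj
  rw [_root_.sum_apply]
  refine Finset.sum_congr rfl (fun i _ => ?_)
  split_ifs <;> simp

lemma OrthoFam.mul_eq (he : OrthoFam e) [DecidableEq ι] (i j : ι) :
    e i * e j = if i = j then e i else 0 := by
  by_cases h : i = j
  · subst h
    rw [if_pos rfl]
    exact (he.1 i).isIdempotentElem
  · rw [if_neg h]
    exact he.2.1 i j h

lemma OrthoFam.colourProj_mul (he : OrthoFam e) [DecidableEq ι] {r : ℕ} (c : ι → Fin r)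
    (k l : Fin r) :
    colourProj e c k * colourProj e c l = if k = l then colourProj e c k else 0 := by
  unfold colourProj
  rw [Finset.sum_mul_sum]
  have h1 : ∀ i j : ι, (if c i = k then e i else 0) * (if c j = l then e j else 0)
      = if i = j then (if c i = k ∧ c i = l then e i else 0) else 0 := by
    intro i j
    by_cases hij : i = j
    · subst hij
      by_cases a1 : c i = k <;> by_cases a2 : c i = l <;> simp [a1, a2, he.mul_eq]
    · by_cases a1 : c i = k <;> by_cases a2 : c j = l <;> simp [a1, a2, he.mul_eq, hij]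
  simp only [h1, Finset.sum_ite_eq, Finset.mem_univ, if_true]
  by_cases hkl : k = l
  · subst hkl
    simp
  · rw [if_neg hkl]
    refine Finset.sum_eq_zero (fun i _ => ?_)
    rw [if_neg]
    rintro ⟨a1, a2⟩
    exact hkl (a1.symm.trans a2)

lemma OrthoFam.colour (he : OrthoFam e) [DecidableEq ι] {r : ℕ} (c : ι → Fin r) :
    OrthoFam (colourProj e c) := by
  refine ⟨fun k => ⟨?_, ?_⟩, fun k l hkl => ?_, ?_⟩
  · have := he.colourProj_mul c k k
    rw [if_pos rfl] at this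
    exact this
  · unfold colourProj
    refine isSelfAdjoint_sum _ (fun i _ => ?_)
    split_ifs
    · exact he.sa i
    · exact IsSelfAdjoint.zero _
  · rw [he.colourProj_mul c k l, if_neg hkl]
  · unfold colourProj
    rw [Finset.sum_comm]
    simp only [Finset.sum_ite_eq, Finset.mem_univ, if_true]
    exact he.2.2

lemma colourProj_mem {A : Set (H →L[ℂ] H)} (hA0 : (0 : H →L[ℂ] H) ∈ A)
    (hAadd : ∀ S T, S ∈ A → T ∈ A → S + T ∈ A) (heA : ∀ i, e i ∈ A) {r : ℕ} (c : ι → Fin r)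
    (k : Fin r) : colourProj e c k ∈ A := by
  unfold colourProj
  refine Finset.sum_induction _ (fun T => T ∈ A) hAadd hA0 (fun i _ => ?_)
  split_ifs
  · exact heA i
  · exact hA0

end fam

section span

variable {κ : Type*} [Fintype κ]

/-- the sum of the rank-one operators `|v j⟩⟨v j|` -/
noncomputable def spanProj (v : κ → H) : H →L[ℂ] H :=
  ∑ j, InnerProductSpace.rankOne ℂ (v j) (v j)

lemma spanProj_apply (v : κ → H) (u : H) : spanProj v u = ∑ j, ⟪v j, u⟫_ℂ • v j := by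
  unfold spanProj
  rw [_root_.sum_apply]
  rfl

variable {v : κ → H}

lemma spanProj_apply_self [DecidableEq κ] (hvo : ∀ j j', j ≠ j' → ⟪v j, v j'⟫_ℂ = 0)
    (hvn : ∀ j, v j = 0 ∨ ‖v j‖ = 1) (j : κ) : spanProj v (v j) = v j := by
  rw [spanProj_apply, Finset.sum_eq_single j]
  · rcases hvn j with h | h
    · rw [h]; simp
    · rw [inner_self_eq_norm_sq_to_K, h]; simp
  · intro j' _ hne
    rw [hvo j' j hne, zero_smul]
  · intro h; exact absurd (Finset.mem_univ j) h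

lemma spanProj_isStarProjection [DecidableEq κ] (hvo : ∀ j j', j ≠ j' → ⟪v j, v j'⟫_ℂ = 0)
    (hvn : ∀ j, v j = 0 ∨ ‖v j‖ = 1) : IsStarProjection (spanProj v) := by
  refine ⟨?_, ?_⟩
  · apply ContinuousLinearMap.ext
    intro u
    rw [mul_apply_eq_comp, spanProj_apply v u, map_sum]
    simp only [map_smul, spanProj_apply_self hvo hvn]
  · apply isSelfAdjoint_of_inner
    intro y z
    simp only [spanProj_apply, sum_inner, inner_sum, inner_smul_left, inner_smul_right]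
    refine Finset.sum_congr rfl (fun j _ => ?_)
    rw [inner_conj_symm]
    ring

lemma norm_sq_sum_smul [DecidableEq κ] (hvo : ∀ j j', j ≠ j' → ⟪v j, v j'⟫_ℂ = 0)
    (α : κ → ℂ) : ‖∑ j, α j • v j‖ ^ 2 = ∑ j, ‖α j‖ ^ 2 * ‖v j‖ ^ 2 := by
  have h : ⟪∑ j, α j • v j, ∑ j, α j • v j⟫_ℂ = ∑ j, ((‖α j‖ ^ 2 * ‖v j‖ ^ 2 : ℝ) : ℂ) := by
    rw [sum_inner]
    refine Finset.sum_congr rfl (fun j _ => ?_)
    rw [inner_sum, Finset.sum_eq_single j]
    · rw [inner_smul_left, inner_smul_right, inner_self_eq_norm_sq_to_K, ← mul_assoc,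
        Complex.conj_mul']
      push_cast
      rfl
    · intro j' _ hne
      rw [inner_smul_left, inner_smul_right, hvo j j' (Ne.symm hne)]
      simp
    · intro h; exact absurd (Finset.mem_univ j) h
  have h2 := congrArg Complex.re h
  rw [← Complex.ofReal_sum, Complex.ofReal_re] at h2
  rw [← h2]
  simpa using (inner_self_eq_norm_sq (𝕜 := ℂ) (∑ j, α j • v j)).symm

lemma sum_inner_sq_le [DecidableEq κ] (hvo : ∀ j j', j ≠ j' → ⟪v j, v j'⟫_ℂ = 0)
    (hvn : ∀ j, v j = 0 ∨ ‖v j‖ = 1) (u : H) : ∑ j, ‖⟪v j, u⟫_ℂ‖ ^ 2 ≤ ‖u‖ ^ 2 := by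
  have h1 : ‖spanProj v u‖ ^ 2 = ∑ j, ‖⟪v j, u⟫_ℂ‖ ^ 2 := by
    rw [spanProj_apply, norm_sq_sum_smul hvo]
    refine Finset.sum_congr rfl (fun j _ => ?_)
    rcases hvn j with h | h
    · rw [h]; simp
    · rw [h]; simp
  rw [← h1]
  exact pow_le_pow_left₀ (norm_nonneg _)
    (proj_norm_le (spanProj_isStarProjection hvo hvn) u) 2

/-- the compression to the span is bounded by the Hilbert–Schmidt norm of the matrix -/
lemma norm_spanProj_mul_mul_le [DecidableEq κ] (hvo : ∀ j j', j ≠ j' → ⟪v j, v j'⟫_ℂ = 0)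
    (hvn : ∀ j, v j = 0 ∨ ‖v j‖ = 1) (T : H →L[ℂ] H) :
    ‖spanProj v * T * spanProj v‖ ≤ Real.sqrt (∑ j, ∑ j', ‖⟪v j, T (v j')⟫_ℂ‖ ^ 2) := by
  refine ContinuousLinearMap.opNorm_le_bound _ (Real.sqrt_nonneg _) (fun u => ?_)
  have hS : 0 ≤ ∑ j, ∑ j', ‖⟪v j, T (v j')⟫_ℂ‖ ^ 2 :=
    Finset.sum_nonneg (fun j _ => Finset.sum_nonneg (fun j' _ => by positivity))
  have hα : (spanProj v * T * spanProj v) u
      = ∑ j, (∑ j', ⟪v j', u⟫_ℂ * ⟪v j, T (v j')⟫_ℂ) • v j := by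
    simp only [mul_apply_eq_comp]
    rw [spanProj_apply v (T (spanProj v u))]
    refine Finset.sum_congr rfl (fun j _ => ?_)
    congr 1
    rw [spanProj_apply, map_sum, inner_sum]
    refine Finset.sum_congr rfl (fun j' _ => ?_)
    rw [map_smul, inner_smul_right]
  have hv1 : ∀ j, ‖v j‖ ^ 2 ≤ 1 := by
    intro j
    rcases hvn j with h | h
    · rw [h]; simp
    · rw [h]; simp
  have h1 : ‖(spanProj v * T * spanProj v) u‖ ^ 2
      ≤ (Real.sqrt (∑ j, ∑ j', ‖⟪v j, T (v j')⟫_ℂ‖ ^ 2) * ‖u‖) ^ 2 := by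
    rw [hα, norm_sq_sum_smul hvo, mul_pow, Real.sq_sqrt hS, Finset.sum_mul]
    refine Finset.sum_le_sum (fun j _ => ?_)
    calc ‖∑ j', ⟪v j', u⟫_ℂ * ⟪v j, T (v j')⟫_ℂ‖ ^ 2 * ‖v j‖ ^ 2
        ≤ ‖∑ j', ⟪v j', u⟫_ℂ * ⟪v j, T (v j')⟫_ℂ‖ ^ 2 * 1 :=
          mul_le_mul_of_nonneg_left (hv1 j) (by positivity)
      _ = ‖∑ j', ⟪v j', u⟫_ℂ * ⟪v j, T (v j')⟫_ℂ‖ ^ 2 := mul_one _
      _ ≤ (∑ j', ‖⟪v j', u⟫_ℂ‖ * ‖⟪v j, T (v j')⟫_ℂ‖) ^ 2 := by
          refine pow_le_pow_left₀ (norm_nonneg _) ?_ 2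
          refine (norm_sum_le _ _).trans (le_of_eq ?_)
          exact Finset.sum_congr rfl (fun j' _ => norm_mul _ _)
      _ ≤ (∑ j', ‖⟪v j', u⟫_ℂ‖ ^ 2) * ∑ j', ‖⟪v j, T (v j')⟫_ℂ‖ ^ 2 :=
          Finset.sum_mul_sq_le_sq_mul_sq _ _ _
      _ ≤ ‖u‖ ^ 2 * ∑ j', ‖⟪v j, T (v j')⟫_ℂ‖ ^ 2 :=
          mul_le_mul_of_nonneg_right (sum_inner_sq_le hvo hvn u)
            (Finset.sum_nonneg (fun j' _ => by positivity))
      _ = (∑ j', ‖⟪v j, T (v j')⟫_ℂ‖ ^ 2) * ‖u‖ ^ 2 := mul_comm _ _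
  exact le_of_sq_le_sq h1 (by positivity)

lemma spanProj_mul_mul_eq_zero [DecidableEq κ] (hvo : ∀ j j', j ≠ j' → ⟪v j, v j'⟫_ℂ = 0)
    (hvn : ∀ j, v j = 0 ∨ ‖v j‖ = 1) (T : H →L[ℂ] H)
    (hT : ∀ j j', ⟪v j, T (v j')⟫_ℂ = 0) : spanProj v * T * spanProj v = 0 := by
  have h := norm_spanProj_mul_mul_le hvo hvn T
  simp only [hT, norm_zero, ne_eq, OfNat.ofNat_ne_zero, not_false_eq_true, zero_pow,
    Finset.sum_const_zero, Real.sqrt_zero] at h
  exact norm_le_zero_iff.mp h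

end span

end Vale.Agent.Lib.P078
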