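import Mathlib
import Vale.Agent.Lib.P078.Defs
import Vale.Agent.Lib.P078.Proj

/-!
# P078 helper: multiplication operators on `L²(μ)`
-/

namespace Vale.Agent.Lib.P078

open MeasureTheory
open scoped InnerProductSpace ENNReal

set_option linter.unusedSectionVars false

universe u

variable {X : Type u} [MeasurableSpace X] {μ : Measure X}

/-- The algebra `L^∞(μ)` acting on `L²(μ)` by multiplication: all bounded operators `T` for which
there is an essentially bounded `φ` with `T g = φ g` almost everywhere, for every `g ∈ L²(μ)`. -/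
def multAlg (μ : Measure X) : Set (Lp ℂ 2 μ →L[ℂ] Lp ℂ 2 μ) :=
  {T | ∃ φ : X → ℂ, MemLp φ ⊤ μ ∧ ∀ g : Lp ℂ 2 μ, T g =ᵐ[μ] fun x => φ x * g x}

open Classical in
/-- multiplication by an essentially bounded function, as an operator on `L²(μ)` -/
noncomputable def mulOp (μ : Measure X) (φ : X → ℂ) : Lp ℂ 2 μ →L[ℂ] Lp ℂ 2 μ :=
  if h : MemLp φ ⊤ μ then (ContinuousLinearMap.mul ℂ ℂ).holderL μ ⊤ 2 2 (h.toLp φ) else 0

/-- `T` acts as multiplication by `φ` -/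
def ActsBy (T : Lp ℂ 2 μ →L[ℂ] Lp ℂ 2 μ) (φ : X → ℂ) : Prop :=
  ∀ g : Lp ℂ 2 μ, T g =ᵐ[μ] fun x => φ x * g x

lemma mulOp_acts {φ : X → ℂ} (h : MemLp φ ⊤ μ) : ActsBy (mulOp μ φ) φ := by
  intro g
  unfold mulOp
  rw [dif_pos h]
  have h1 := (ContinuousLinearMap.mul ℂ ℂ).coeFn_holder (r := 2) (h.toLp φ) g
  have h2 := h.coeFn_toLp
  filter_upwards [h1, h2] with x hx1 hx2
  rw [ContinuousLinearMap.holderL_apply_apply, hx1]
  simp [hx2]

lemma mulOp_mem {φ : X → ℂ} (h : MemLp φ ⊤ μ) : mulOp μ φ ∈ multAlg μ :=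
  ⟨φ, h, mulOp_acts h⟩

lemma ActsBy.ext {T S : Lp ℂ 2 μ →L[ℂ] Lp ℂ 2 μ} {φ ψ : X → ℂ} (hT : ActsBy T φ)
    (hS : ActsBy S ψ) (h : φ =ᵐ[μ] ψ) : T = S := by
  apply ContinuousLinearMap.ext
  intro g
  apply Lp.ext
  filter_upwards [hT g, hS g, h] with x h1 h2 h3
  rw [h1, h2, h3]

lemma actsBy_zero : ActsBy (0 : Lp ℂ 2 μ →L[ℂ] Lp ℂ 2 μ) (fun _ => 0) := by
  intro g
  have h0 : (0 : Lp ℂ 2 μ →L[ℂ] Lp ℂ 2 μ) g = 0 := rfl
  rw [h0]
  filter_upwards [Lp.coeFn_zero ℂ 2 μ] with x hx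
  rw [hx]
  simp

lemma actsBy_one : ActsBy (1 : Lp ℂ 2 μ →L[ℂ] Lp ℂ 2 μ) (fun _ => 1) := by
  intro g
  filter_upwards with x
  simp

lemma ActsBy.add {T S : Lp ℂ 2 μ →L[ℂ] Lp ℂ 2 μ} {φ ψ : X → ℂ} (hT : ActsBy T φ)
    (hS : ActsBy S ψ) : ActsBy (T + S) (fun x => φ x + ψ x) := by
  intro g
  filter_upwards [hT g, hS g, Lp.coeFn_add (T g) (S g)] with x h1 h2 h3
  rw [_root_.add_apply, h3, Pi.add_apply, h1, h2]
  ring

lemma ActsBy.smul {T : Lp ℂ 2 μ →L[ℂ] Lp ℂ 2 μ} {φ : X → ℂ} (hT : ActsBy T φ) (c : ℂ) :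
    ActsBy (c • T) (fun x => c * φ x) := by
  intro g
  filter_upwards [hT g, Lp.coeFn_smul c (T g)] with x h1 h3
  rw [_root_.smul_apply, h3, Pi.smul_apply, h1, smul_eq_mul]
  ring

lemma ActsBy.mul {T S : Lp ℂ 2 μ →L[ℂ] Lp ℂ 2 μ} {φ ψ : X → ℂ} (hT : ActsBy T φ)
    (hS : ActsBy S ψ) : ActsBy (T * S) (fun x => φ x * ψ x) := by
  intro g
  filter_upwards [hT (S g), hS g] with x h1 h2
  rw [mul_apply_eq_comp, h1, h2]
  ring

lemma ActsBy.sum {ι : Type*} (s : Finset ι) (T : ι → Lp ℂ 2 μ →L[ℂ] Lp ℂ 2 μ)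
    (φ : ι → X → ℂ) (h : ∀ i ∈ s, ActsBy (T i) (φ i)) :
    ActsBy (∑ i ∈ s, T i) (fun x => ∑ i ∈ s, φ i x) := by
  classical
  induction s using Finset.induction_on with
  | empty => simpa using (actsBy_zero (μ := μ))
  | insert i s hi ih =>
    rw [Finset.sum_insert hi]
    have h1 := (h i (Finset.mem_insert_self i s)).add
      (ih (fun j hj => h j (Finset.mem_insert_of_mem hj)))
    intro g
    filter_upwards [h1 g] with x hx
    rw [hx, Finset.sum_insert hi]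

lemma ActsBy.inner {T : Lp ℂ 2 μ →L[ℂ] Lp ℂ 2 μ} {φ : X → ℂ} (hT : ActsBy T φ)
    (f g : Lp ℂ 2 μ) :
    ⟪f, T g⟫_ℂ = ∫ x, (starRingEnd ℂ) (f x) * (φ x * g x) ∂μ := by
  rw [L2.inner_def]
  apply integral_congr_ae
  filter_upwards [hT g] with x hx
  rw [hx, RCLike.inner_apply]
  ring

lemma ActsBy.inner_left {T : Lp ℂ 2 μ →L[ℂ] Lp ℂ 2 μ} {φ : X → ℂ} (hT : ActsBy T φ)
    (f g : Lp ℂ 2 μ) :
    ⟪T f, g⟫_ℂ = ∫ x, (starRingEnd ℂ) (φ x * f x) * g x ∂μ := by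
  rw [L2.inner_def]
  apply integral_congr_ae
  filter_upwards [hT f] with x hx
  rw [hx, RCLike.inner_apply]
  ring

lemma ActsBy.isSelfAdjoint {T : Lp ℂ 2 μ →L[ℂ] Lp ℂ 2 μ} {φ : X → ℂ} (hT : ActsBy T φ)
    (hφ : ∀ᵐ x ∂μ, (starRingEnd ℂ) (φ x) = φ x) : IsSelfAdjoint T := by
  apply isSelfAdjoint_of_inner
  intro f g
  rw [hT.inner_left, hT.inner]
  apply integral_congr_ae
  filter_upwards [hφ] with x hx
  rw [map_mul, hx]
  ring

/-! ### indicator projections -/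

/-- multiplication by the indicator of a set -/
noncomputable def indOp (μ : Measure X) (s : Set X) : Lp ℂ 2 μ →L[ℂ] Lp ℂ 2 μ :=
  mulOp μ (s.indicator (fun _ => (1 : ℂ)))

lemma memLp_ind {s : Set X} (hs : MeasurableSet s) :
    MemLp (s.indicator (fun _ => (1 : ℂ))) ⊤ μ :=
  (memLp_top_const (1 : ℂ)).indicator hs

lemma indOp_acts {s : Set X} (hs : MeasurableSet s) :
    ActsBy (indOp μ s) (s.indicator (fun _ => (1 : ℂ))) :=
  mulOp_acts (memLp_ind hs)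

lemma indOp_mem {s : Set X} (hs : MeasurableSet s) : indOp μ s ∈ multAlg μ :=
  mulOp_mem (memLp_ind hs)

lemma indOp_mul {s t : Set X} (hs : MeasurableSet s) (ht : MeasurableSet t) :
    indOp μ s * indOp μ t = indOp μ (s ∩ t) := by
  refine ((indOp_acts hs).mul (indOp_acts ht)).ext (indOp_acts (hs.inter ht))
    (Filter.Eventually.of_forall (fun x => ?_))
  by_cases h1 : x ∈ s <;> by_cases h2 : x ∈ t <;> simp [Set.indicator, h1, h2]

lemma indOp_empty : indOp μ (∅ : Set X) = 0 := by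
  refine (indOp_acts MeasurableSet.empty).ext actsBy_zero
    (Filter.Eventually.of_forall (fun x => ?_))
  simp

lemma indOp_univ : indOp μ (Set.univ : Set X) = 1 := by
  refine (indOp_acts MeasurableSet.univ).ext actsBy_one
    (Filter.Eventually.of_forall (fun x => ?_))
  simp

lemma indOp_isStarProjection {s : Set X} (hs : MeasurableSet s) :
    IsStarProjection (indOp μ s) := by
  refine ⟨?_, ?_⟩
  · unfold IsIdempotentElem
    rw [indOp_mul hs hs, Set.inter_self]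
  · refine (indOp_acts hs).isSelfAdjoint (Filter.Eventually.of_forall (fun x => ?_))
    by_cases h1 : x ∈ s <;> simp [Set.indicator, h1]

lemma sum_indOp {ι : Type*} [Fintype ι] (E : ι → Set X) (hE : ∀ i, MeasurableSet (E i))
    (hd : ∀ i j, i ≠ j → Disjoint (E i) (E j)) (hU : (⋃ i, E i) = Set.univ) :
    ∑ i, indOp μ (E i) = 1 := by
  classical
  refine (ActsBy.sum Finset.univ (fun i => indOp μ (E i))
    (fun i => (E i).indicator (fun _ => (1 : ℂ))) (fun i _ => indOp_acts (hE i))).ext actsBy_one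
    (Filter.Eventually.of_forall (fun x => ?_))
  have hx : x ∈ ⋃ i, E i := by rw [hU]; trivial
  obtain ⟨i₀, hi₀⟩ := Set.mem_iUnion.mp hx
  show ∑ i, (E i).indicator (fun _ => (1 : ℂ)) x = 1
  rw [Finset.sum_eq_single i₀]
  · simp [Set.indicator, hi₀]
  · intro j _ hj
    have : x ∉ E j := fun hxj => Set.disjoint_left.mp (hd j i₀ hj) hxj hi₀
    simp [Set.indicator, this]
  · intro h; exact absurd (Finset.mem_univ i₀) h

lemma orthoFam_indOp {ι : Type*} [Fintype ι] (E : ι → Set X) (hE : ∀ i, MeasurableSet (E i))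
    (hd : ∀ i j, i ≠ j → Disjoint (E i) (E j)) (hU : (⋃ i, E i) = Set.univ) :
    OrthoFam (fun i => indOp μ (E i)) :=
  ⟨fun i => indOp_isStarProjection (hE i),
    fun i j hij => by
      show indOp μ (E i) * indOp μ (E j) = 0
      rw [indOp_mul (hE i) (hE j), (hd i j hij).inter_eq, indOp_empty],
    sum_indOp E hE hd hU⟩

/-! ### the algebra is closed under sums and scalar multiples -/

lemma multAlg_zero : (0 : Lp ℂ 2 μ →L[ℂ] Lp ℂ 2 μ) ∈ multAlg μ :=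
  ⟨fun _ => 0, MemLp.zero, actsBy_zero⟩

lemma multAlg_add (S T : Lp ℂ 2 μ →L[ℂ] Lp ℂ 2 μ) (hS : S ∈ multAlg μ) (hT : T ∈ multAlg μ) :
    S + T ∈ multAlg μ := by
  obtain ⟨φ, hφ, h1⟩ := hS
  obtain ⟨ψ, hψ, h2⟩ := hT
  exact ⟨fun x => φ x + ψ x, hφ.add hψ, ActsBy.add h1 h2⟩

lemma multAlg_smul (t : ℝ) (T : Lp ℂ 2 μ →L[ℂ] Lp ℂ 2 μ) (hT : T ∈ multAlg μ) :
    (t : ℂ) • T ∈ multAlg μ := by
  obtain ⟨φ, hφ, h1⟩ := hT
  exact ⟨fun x => (t : ℂ) * φ x, hφ.const_mul _, ActsBy.smul h1 _⟩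

end Vale.Agent.Lib.P078
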