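import Mathlib

/-!
# P078 helper: second moment of a random colouring

For a colouring `c : ι → Fin r` the weight of an ordered pair `(i, i')` of distinct indices is
`[c i = c i'] - 1/r`.  Averaged over all colourings these weights are centred and pairwise
uncorrelated (for distinct unordered pairs); this gives the second-moment bound `sum_sq_wt_le`.
-/

namespace Vale.Agent.Lib.P078

open Finset

set_option linter.unusedSectionVars false

variable {ι : Type*} [Fintype ι] [DecidableEq ι] {r : ℕ} [NeZero r]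

/-- weight of an ordered pair under a colouring -/
noncomputable def wt (c : ι → Fin r) (i i' : ι) : ℝ :=
  if i = i' then 0 else (if c i = c i' then 1 else 0) - 1 / (r : ℝ)

lemma wt_symm (c : ι → Fin r) (i i' : ι) : wt c i i' = wt c i' i := by
  unfold wt
  by_cases h : i = i'
  · subst h; rfl
  · have h' : ¬ i' = i := fun e => h e.symm
    simp only [if_neg h, if_neg h']
    by_cases hc : c i = c i'
    · simp [hc]
    · have hc' : ¬ c i' = c i := fun e => hc e.symm
      simp [hc, hc']

lemma wt_self (c : ι → Fin r) (i : ι) : wt c i i = 0 := by simp [wt]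

lemma sum_translate (i : ι) (G : (ι → Fin r) → ℝ) :
    ∑ c, G c = (1 / (r : ℝ)) * ∑ c, ∑ a : Fin r, G (c + (Pi.single i a : ι → Fin r)) := by
  rw [Finset.sum_comm]
  have h : ∀ a : Fin r, ∑ c, G (c + (Pi.single i a : ι → Fin r)) = ∑ c, G c := fun a =>
    Equiv.sum_comp (Equiv.addRight (Pi.single i a : ι → Fin r)) G
  have hr : (r : ℝ) ≠ 0 := Nat.cast_ne_zero.mpr (NeZero.ne r)
  simp only [h, Finset.sum_const, Finset.card_univ, Fintype.card_fin, nsmul_eq_mul]
  field_simp

lemma sum_wt_translate (c : ι → Fin r) (i i' : ι) (h : i ≠ i') :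
    ∑ a : Fin r, wt (c + (Pi.single i a : ι → Fin r)) i i' = 0 := by
  have hr : (r : ℝ) ≠ 0 := Nat.cast_ne_zero.mpr (NeZero.ne r)
  have h' : i' ≠ i := fun e => h e.symm
  unfold wt
  simp only [if_neg h, Pi.add_apply, Pi.single_eq_same, Pi.single_eq_of_ne h', add_zero]
  rw [Finset.sum_sub_distrib]
  have h1 : ∀ a : Fin r, (c i + a = c i') ↔ a = c i' - c i := by
    intro a
    constructor
    · intro e; rw [← e]; abel
    · intro e; rw [e]; abel
  simp only [h1, Finset.sum_ite_eq', Finset.mem_univ, if_true, Finset.sum_const, Finset.card_univ,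
    Fintype.card_fin, nsmul_eq_mul]
  field_simp
  ring

/-- averaging over the colour of `i` kills the weight of `(i, i')` against anything that does
not depend on the colour of `i` -/
lemma sum_wt_mul (i i' : ι) (h : i ≠ i') (F : (ι → Fin r) → ℝ)
    (hF : ∀ c a, F (c + (Pi.single i a : ι → Fin r)) = F c) :
    ∑ c, wt c i i' * F c = 0 := by
  rw [sum_translate i]
  have h0 : ∀ c : ι → Fin r,
      ∑ a : Fin r, wt (c + (Pi.single i a : ι → Fin r)) i i' * F (c + (Pi.single i a : ι → Fin r)) = 0 := by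
    intro c
    simp only [hF]
    rw [← Finset.sum_mul, sum_wt_translate c i i' h, zero_mul]
  simp [h0]

lemma sum_wt (i i' : ι) (h : i ≠ i') : ∑ c : ι → Fin r, wt c i i' = 0 := by
  have := sum_wt_mul (r := r) i i' h (fun _ => 1) (fun _ _ => rfl)
  simpa using this

lemma wt_sq (c : ι → Fin r) (i i' : ι) (h : i ≠ i') :
    wt c i i' ^ 2 = (1 - 2 / (r : ℝ)) * wt c i i' + (1 / (r : ℝ) - 1 / (r : ℝ) ^ 2) := by
  have hr : (r : ℝ) ≠ 0 := Nat.cast_ne_zero.mpr (NeZero.ne r)
  unfold wt
  simp only [if_neg h]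
  by_cases hc : c i = c i'
  · simp only [hc, if_true]; field_simp; ring
  · simp only [hc, if_false]; field_simp; ring

lemma sum_wt_sq (i i' : ι) (h : i ≠ i') :
    ∑ c : ι → Fin r, wt c i i' ^ 2
      = (Fintype.card (ι → Fin r) : ℝ) * (1 / (r : ℝ) - 1 / (r : ℝ) ^ 2) := by
  simp only [wt_sq _ _ _ h, Finset.sum_add_distrib, ← Finset.mul_sum, sum_wt i i' h, mul_zero,
    zero_add, Finset.sum_const, Finset.card_univ, nsmul_eq_mul]

/-- the correlation kernel of the weights -/
lemma sum_wt_mul_wt (i i' j j' : ι) :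
    ∑ c : ι → Fin r, wt c i i' * wt c j j'
      = if i = i' then 0 else
          (Fintype.card (ι → Fin r) : ℝ) * (1 / (r : ℝ) - 1 / (r : ℝ) ^ 2) *
            ((if j = i ∧ j' = i' then 1 else 0) + (if j = i' ∧ j' = i then 1 else 0)) := by
  by_cases h : i = i'
  · subst h; simp [wt_self]
  rw [if_neg h]
  have h' : i' ≠ i := fun e => h e.symm
  by_cases h1 : j = i ∧ j' = i'
  · obtain ⟨rfl, rfl⟩ := h1
    have : ¬ (j = j' ∧ j' = j) := fun e => h e.1
    simp only [and_self, if_true, this, if_false, add_zero, mul_one]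
    rw [← sum_wt_sq j j' h]
    exact Finset.sum_congr rfl (fun c _ => by ring)
  by_cases h2 : j = i' ∧ j' = i
  · obtain ⟨rfl, rfl⟩ := h2
    simp only [h1, if_false, and_self, if_true, zero_add, mul_one]
    rw [← sum_wt_sq j' j h]
    exact Finset.sum_congr rfl (fun c _ => by rw [wt_symm c j j']; ring)
  simp only [h1, h2, if_false, add_zero, mul_zero]
  by_cases hjj : j = j'
  · subst hjj; simp [wt_self]
  by_cases hi : i ≠ j ∧ i ≠ j'
  · -- the second weight does not depend on the colour of `i`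
    refine sum_wt_mul i i' h (fun c => wt c j j') ?_
    intro c a
    unfold wt
    simp only [Pi.add_apply, Pi.single_eq_of_ne (Ne.symm hi.1), Pi.single_eq_of_ne (Ne.symm hi.2),
      add_zero]
  · -- then `i'` is different from `j` and `j'`
    have hi' : i' ≠ j ∧ i' ≠ j' := by
      constructor
      · intro e
        subst e
        apply h2
        refine ⟨rfl, ?_⟩
        by_contra hne
        exact hi ⟨fun e => h (e ▸ rfl), fun e => hne e.symm⟩
      · intro e
        subst e
        apply h1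
        refine ⟨?_, rfl⟩
        by_contra hne
        exact hi ⟨fun e => hne e.symm, fun e => h e⟩
    have := sum_wt_mul (r := r) i' i h' (fun c => wt c j j') (by
      intro c a
      unfold wt
      simp only [Pi.add_apply, Pi.single_eq_of_ne (Ne.symm hi'.1),
        Pi.single_eq_of_ne (Ne.symm hi'.2), add_zero])
    rw [← this]
    exact Finset.sum_congr rfl (fun c _ => by rw [wt_symm c i i'])


/-- second-moment bound, real coefficients -/
lemma sum_sq_wt_real (β : ι → ι → ℝ) :
    ∑ c : ι → Fin r, (∑ i, ∑ i', wt c i i' * β i i') ^ 2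
      ≤ (Fintype.card (ι → Fin r) : ℝ) * (2 / (r : ℝ)) * ∑ i, ∑ i', β i i' ^ 2 := by
  have hr : (0 : ℝ) < r := Nat.cast_pos.mpr (Nat.pos_of_ne_zero (NeZero.ne r))
  set K0 : ℝ := (Fintype.card (ι → Fin r) : ℝ) * (1 / (r : ℝ) - 1 / (r : ℝ) ^ 2) with hK0
  set K1 : ℝ := (Fintype.card (ι → Fin r) : ℝ) * (1 / (r : ℝ)) with hK1
  have hcard : (0 : ℝ) ≤ (Fintype.card (ι → Fin r) : ℝ) := Nat.cast_nonneg _
  have hr1 : (1 : ℝ) ≤ r := by
    have : 1 ≤ r := Nat.pos_of_ne_zero (NeZero.ne r)
    exact_mod_cast this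
  have hK0nn : 0 ≤ K0 := by
    apply mul_nonneg hcard
    have : 1 / (r : ℝ) ^ 2 ≤ 1 / (r : ℝ) := by
      apply one_div_le_one_div_of_le hr
      nlinarith
    linarith
  have hK01 : K0 ≤ K1 := by
    apply mul_le_mul_of_nonneg_left _ hcard
    have : 0 ≤ 1 / (r : ℝ) ^ 2 := by positivity
    linarith
  -- expand the square and sum over colourings first
  have hexp : ∀ c : ι → Fin r, (∑ i, ∑ i', wt c i i' * β i i') ^ 2
      = ∑ i, ∑ i', ∑ j, ∑ j', (wt c i i' * wt c j j') * (β i i' * β j j') := by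
    intro c
    rw [sq, Finset.sum_mul]
    refine Finset.sum_congr rfl (fun i _ => ?_)
    rw [Finset.sum_mul]
    refine Finset.sum_congr rfl (fun i' _ => ?_)
    rw [Finset.mul_sum]
    refine Finset.sum_congr rfl (fun j _ => ?_)
    rw [Finset.mul_sum]
    refine Finset.sum_congr rfl (fun j' _ => ?_)
    ring
  have hswap : ∑ c : ι → Fin r, (∑ i, ∑ i', wt c i i' * β i i') ^ 2
      = ∑ i, ∑ i', ∑ j, ∑ j', (∑ c : ι → Fin r, wt c i i' * wt c j j') * (β i i' * β j j') := by
    simp only [hexp]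
    rw [Finset.sum_comm]
    refine Finset.sum_congr rfl (fun i _ => ?_)
    rw [Finset.sum_comm]
    refine Finset.sum_congr rfl (fun i' _ => ?_)
    rw [Finset.sum_comm]
    refine Finset.sum_congr rfl (fun j _ => ?_)
    rw [Finset.sum_comm]
    refine Finset.sum_congr rfl (fun j' _ => ?_)
    rw [Finset.sum_mul]
  have hinner : ∀ i i' : ι,
      ∑ j, ∑ j', (∑ c : ι → Fin r, wt c i i' * wt c j j') * (β i i' * β j j')
        = if i = i' then 0 else K0 * (β i i' * (β i i' + β i' i)) := by
    intro i i'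
    simp only [sum_wt_mul_wt]
    by_cases h : i = i'
    · simp [h]
    simp only [if_neg h]
    have h1 : ∀ j j' : ι, K0 * ((if j = i ∧ j' = i' then (1 : ℝ) else 0)
        + (if j = i' ∧ j' = i then 1 else 0)) * (β i i' * β j j')
        = (if j = i then (if j' = i' then K0 * (β i i' * β j j') else 0) else 0)
          + (if j = i' then (if j' = i then K0 * (β i i' * β j j') else 0) else 0) := by
      intro j j'
      by_cases a1 : j = i
      · subst a1
        by_cases a2 : j' = i' <;> simp [a2, h]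
      · by_cases a3 : j = i'
        · subst a3
          by_cases a4 : j' = i <;> simp [a4, a1]
        · simp [a1, a3]
    simp only [← hK0, h1]
    have h2 : ∀ j : ι, (∑ j', if j = i then (if j' = i' then K0 * (β i i' * β j j') else 0) else 0)
        = if j = i then K0 * (β i i' * β j i') else 0 := by
      intro j
      by_cases a1 : j = i
      · simp [a1]
      · simp [a1]
    have h3 : ∀ j : ι, (∑ j', if j = i' then (if j' = i then K0 * (β i i' * β j j') else 0) else 0)
        = if j = i' then K0 * (β i i' * β j i) else 0 := by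
      intro j
      by_cases a1 : j = i'
      · simp [a1]
      · simp [a1]
    simp only [Finset.sum_add_distrib, h2, h3, Finset.sum_ite_eq', Finset.mem_univ, if_true]
    ring
  rw [hswap]
  simp only [hinner]
  have hterm : ∀ i i' : ι, (if i = i' then 0 else K0 * (β i i' * (β i i' + β i' i)))
      ≤ K1 * (β i i' ^ 2 + (β i i' ^ 2 + β i' i ^ 2) / 2) := by
    intro i i'
    have hnn : 0 ≤ β i i' ^ 2 + (β i i' ^ 2 + β i' i ^ 2) / 2 := by positivity
    by_cases h : i = i'
    · rw [if_pos h]
      exact mul_nonneg (le_trans hK0nn hK01) hnn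
    · rw [if_neg h]
      have : β i i' * (β i i' + β i' i) ≤ β i i' ^ 2 + (β i i' ^ 2 + β i' i ^ 2) / 2 := by
        nlinarith [sq_nonneg (β i i' - β i' i)]
      calc K0 * (β i i' * (β i i' + β i' i))
          ≤ K0 * (β i i' ^ 2 + (β i i' ^ 2 + β i' i ^ 2) / 2) :=
            mul_le_mul_of_nonneg_left this hK0nn
        _ ≤ K1 * (β i i' ^ 2 + (β i i' ^ 2 + β i' i ^ 2) / 2) :=
            mul_le_mul_of_nonneg_right hK01 hnn
  calc ∑ i, ∑ i', (if i = i' then 0 else K0 * (β i i' * (β i i' + β i' i)))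
      ≤ ∑ i, ∑ i', K1 * (β i i' ^ 2 + (β i i' ^ 2 + β i' i ^ 2) / 2) :=
        Finset.sum_le_sum (fun i _ => Finset.sum_le_sum (fun i' _ => hterm i i'))
    _ = (Fintype.card (ι → Fin r) : ℝ) * (2 / (r : ℝ)) * ∑ i, ∑ i', β i i' ^ 2 := by
        have hsw : ∑ i, ∑ i', β i' i ^ 2 = ∑ i, ∑ i', β i i' ^ 2 := Finset.sum_comm
        simp only [← Finset.mul_sum, Finset.sum_add_distrib, ← Finset.sum_div, hsw, hK1]
        ring

/-- second-moment bound, complex coefficients -/
lemma sum_sq_wt_le (b : ι → ι → ℂ) :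
    ∑ c : ι → Fin r, ‖∑ i, ∑ i', (wt c i i' : ℂ) * b i i'‖ ^ 2
      ≤ (Fintype.card (ι → Fin r) : ℝ) * (2 / (r : ℝ)) * ∑ i, ∑ i', ‖b i i'‖ ^ 2 := by
  have hre : ∀ c : ι → Fin r, (∑ i, ∑ i', (wt c i i' : ℂ) * b i i').re
      = ∑ i, ∑ i', wt c i i' * (b i i').re := by
    intro c
    simp [Complex.re_sum]
  have him : ∀ c : ι → Fin r, (∑ i, ∑ i', (wt c i i' : ℂ) * b i i').im
      = ∑ i, ∑ i', wt c i i' * (b i i').im := by
    intro c
    simp [Complex.im_sum]
  have hnorm : ∀ z : ℂ, ‖z‖ ^ 2 = z.re ^ 2 + z.im ^ 2 := by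
    intro z
    rw [← Complex.normSq_eq_norm_sq, Complex.normSq_apply]
    ring
  simp only [hnorm, hre, him, Finset.sum_add_distrib, mul_add]
  exact add_le_add (sum_sq_wt_real (fun i i' => (b i i').re))
    (sum_sq_wt_real (fun i i' => (b i i').im))

end Vale.Agent.Lib.P078
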