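import Mathlib
import Vale.Agent.Lib.P078.Defs
import Vale.Agent.Lib.P078.Coloring
import Vale.Agent.Lib.P078.Proj

/-!
# P078 helper: the abstract upper bound

Given a fine orthogonal family `e` of projections and vectors `v j` with disjoint supports
relative to `e`, a random colouring of the family gives a partition `p` with `r` pieces such that
the pinching `S_p(x)`, compressed to the span of the `v j`, is within `(1/r + small) ‖x‖` of an
explicit real combination of the `e i`.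
-/

namespace Vale.Agent.Lib.P078

open scoped InnerProductSpace

set_option linter.unusedSectionVars false

variable {H : Type*} [NormedAddCommGroup H] [InnerProductSpace ℂ H] [CompleteSpace H]

section upper

variable {ι : Type*} [Fintype ι] [DecidableEq ι] {e : ι → H →L[ℂ] H}

/-- the block-diagonal part of `x` with respect to the family `e` -/
noncomputable def diagPart (e : ι → H →L[ℂ] H) (x : H →L[ℂ] H) : H →L[ℂ] H :=
  ∑ i, e i * x * e i

/-- matrix coefficients of `x` between the pieces of `u` and `w` -/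
noncomputable def coef (e : ι → H →L[ℂ] H) (x : H →L[ℂ] H) (u w : H) (i i' : ι) : ℂ :=
  ⟪e i w, x (e i' u)⟫_ℂ

lemma inner_x_eq (he : OrthoFam e) (x : H →L[ℂ] H) (u w : H) :
    ⟪w, x u⟫_ℂ = ∑ i, ∑ i', coef e x u w i i' := by
  unfold coef
  conv_lhs => rw [← he.sum_apply u, ← he.sum_apply w]
  rw [sum_inner]
  refine Finset.sum_congr rfl (fun i _ => ?_)
  rw [map_sum, inner_sum]

lemma inner_diag_eq (he : OrthoFam e) (x : H →L[ℂ] H) (u w : H) :
    ⟪w, diagPart e x u⟫_ℂ = ∑ i, ∑ i', (if i = i' then 1 else 0) * coef e x u w i i' := by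
  unfold coef diagPart
  rw [_root_.sum_apply, inner_sum]
  refine Finset.sum_congr rfl (fun i _ => ?_)
  simp only [ite_mul, one_mul, zero_mul, Finset.sum_ite_eq, Finset.mem_univ, if_true]
  simp only [mul_apply_eq_comp]
  rw [sa_inner (he.sa i)]

lemma inner_pinching_eq (he : OrthoFam e) {r : ℕ} (c : ι → Fin r) (x : H →L[ℂ] H) (u w : H) :
    ⟪w, pinching (colourProj e c) x u⟫_ℂ
      = ∑ i, ∑ i', (if c i = c i' then 1 else 0) * coef e x u w i i' := by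
  unfold pinching coef
  rw [_root_.sum_apply, inner_sum]
  have h : ∀ k, ⟪w, (colourProj e c k * x * colourProj e c k) u⟫_ℂ
      = ∑ i, ∑ i', (if c i = k then (if c i' = k then ⟪e i w, x (e i' u)⟫_ℂ else 0) else 0) := by
    intro k
    simp only [mul_apply_eq_comp]
    rw [← sa_inner ((he.colour c).sa k), colourProj_apply, colourProj_apply, sum_inner]
    refine Finset.sum_congr rfl (fun i _ => ?_)
    rw [map_sum, inner_sum]
    by_cases hk : c i = k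
    · simp only [hk, if_true]
      refine Finset.sum_congr rfl (fun i' _ => ?_)
      split_ifs <;> simp
    · simp [hk]
  simp only [h]
  rw [Finset.sum_comm]
  refine Finset.sum_congr rfl (fun i _ => ?_)
  rw [Finset.sum_comm]
  refine Finset.sum_congr rfl (fun i' _ => ?_)
  rw [Finset.sum_ite_eq]
  simp only [Finset.mem_univ, if_true]
  by_cases hc : c i = c i'
  · simp [hc]
  · have hc' : ¬ c i' = c i := fun h => hc h.symm
    simp [hc, hc']

/-- the deviation operator of a colouring -/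
noncomputable def devOp (e : ι → H →L[ℂ] H) {r : ℕ} (c : ι → Fin r) (x : H →L[ℂ] H) :
    H →L[ℂ] H :=
  pinching (colourProj e c) x - ((1 / (r : ℝ) : ℝ) : ℂ) • x
    - ((1 - 1 / (r : ℝ) : ℝ) : ℂ) • diagPart e x

lemma inner_dev_eq (he : OrthoFam e) {r : ℕ} [NeZero r] (c : ι → Fin r) (x : H →L[ℂ] H)
    (u w : H) :
    ⟪w, devOp e c x u⟫_ℂ = ∑ i, ∑ i', (wt c i i' : ℂ) * coef e x u w i i' := by
  unfold devOp
  simp only [_root_.sub_apply, _root_.smul_apply, inner_sub_right, inner_smul_right,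
    inner_pinching_eq he, inner_x_eq he x u w, inner_diag_eq he, Finset.mul_sum,
    ← Finset.sum_sub_distrib]
  refine Finset.sum_congr rfl (fun i _ => Finset.sum_congr rfl (fun i' _ => ?_))
  unfold wt
  by_cases h : i = i'
  · subst h
    simp only [if_true]
    push_cast
    ring
  · simp only [if_neg h]
    by_cases hc : c i = c i'
    · simp only [hc, if_true]
      push_cast
      ring
    · simp only [hc, if_false]
      push_cast
      ring

lemma sum_coef_sq_le (he : OrthoFam e) (x : H →L[ℂ] H) (u w : H) (η : ℝ) (hη0 : 0 ≤ η)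
    (hη : ∀ i, ‖e i w‖ ^ 2 ≤ η) :
    ∑ i, ∑ i', ‖coef e x u w i i'‖ ^ 2 ≤ η * ‖x‖ ^ 2 * ‖u‖ ^ 2 := by
  rw [Finset.sum_comm]
  have h1 : ∀ i', ∑ i, ‖coef e x u w i i'‖ ^ 2 ≤ η * ‖x‖ ^ 2 * ‖e i' u‖ ^ 2 := by
    intro i'
    calc ∑ i, ‖coef e x u w i i'‖ ^ 2 ≤ ∑ i, η * ‖e i (x (e i' u))‖ ^ 2 := by
          refine Finset.sum_le_sum (fun i _ => ?_)
          unfold coef
          rw [he.inner_left i w (x (e i' u))]
          calc ‖⟪e i w, e i (x (e i' u))⟫_ℂ‖ ^ 2 ≤ (‖e i w‖ * ‖e i (x (e i' u))‖) ^ 2 :=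
                pow_le_pow_left₀ (norm_nonneg _) (norm_inner_le_norm _ _) 2
            _ = ‖e i w‖ ^ 2 * ‖e i (x (e i' u))‖ ^ 2 := mul_pow _ _ _
            _ ≤ η * ‖e i (x (e i' u))‖ ^ 2 :=
                mul_le_mul_of_nonneg_right (hη i) (by positivity)
      _ = η * ‖x (e i' u)‖ ^ 2 := by rw [← Finset.mul_sum, ← he.norm_sq_eq_sum]
      _ ≤ η * (‖x‖ * ‖e i' u‖) ^ 2 := by
          apply mul_le_mul_of_nonneg_left _ hη0
          exact pow_le_pow_left₀ (norm_nonneg _) (x.le_opNorm _) 2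
      _ = η * ‖x‖ ^ 2 * ‖e i' u‖ ^ 2 := by ring
  calc ∑ i', ∑ i, ‖coef e x u w i i'‖ ^ 2 ≤ ∑ i', η * ‖x‖ ^ 2 * ‖e i' u‖ ^ 2 :=
        Finset.sum_le_sum (fun i' _ => h1 i')
    _ = η * ‖x‖ ^ 2 * ‖u‖ ^ 2 := by rw [← Finset.mul_sum, ← he.norm_sq_eq_sum]

/-- some colouring has small deviation on the vectors `v j` -/
lemma exists_colouring (he : OrthoFam e) {κ : Type*} [Fintype κ] (v : κ → H)
    (x : H →L[ℂ] H) (η : ℝ) (hη0 : 0 ≤ η) (hη : ∀ i j, ‖e i (v j)‖ ^ 2 ≤ η)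
    (hv1 : ∀ j, ‖v j‖ ≤ 1) (r : ℕ) [NeZero r] :
    ∃ c : ι → Fin r, ∑ j, ∑ j', ‖⟪v j, devOp e c x (v j')⟫_ℂ‖ ^ 2
        ≤ 2 * η * (Fintype.card κ : ℝ) ^ 2 / (r : ℝ) * ‖x‖ ^ 2 := by
  have hr : (0 : ℝ) < r := Nat.cast_pos.mpr (Nat.pos_of_ne_zero (NeZero.ne r))
  have hentry : ∀ j j' : κ, ∑ c : ι → Fin r, ‖⟪v j, devOp e c x (v j')⟫_ℂ‖ ^ 2
      ≤ (Fintype.card (ι → Fin r) : ℝ) * (2 / (r : ℝ)) * (η * ‖x‖ ^ 2) := by
    intro j j'
    simp only [inner_dev_eq he]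
    refine (sum_sq_wt_le (fun i i' => coef e x (v j') (v j) i i')).trans ?_
    apply mul_le_mul_of_nonneg_left _ (by positivity)
    refine (sum_coef_sq_le he x (v j') (v j) η hη0 (fun i => hη i j)).trans ?_
    have : ‖v j'‖ ^ 2 ≤ 1 := by
      have := hv1 j'
      nlinarith [norm_nonneg (v j')]
    nlinarith [mul_nonneg hη0 (sq_nonneg ‖x‖)]
  have hsum : ∑ c : ι → Fin r, ∑ j, ∑ j', ‖⟪v j, devOp e c x (v j')⟫_ℂ‖ ^ 2
      ≤ ∑ _c : ι → Fin r, 2 * η * (Fintype.card κ : ℝ) ^ 2 / (r : ℝ) * ‖x‖ ^ 2 := by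
    rw [Finset.sum_comm]
    calc ∑ j, ∑ c : ι → Fin r, ∑ j', ‖⟪v j, devOp e c x (v j')⟫_ℂ‖ ^ 2
        = ∑ j, ∑ j', ∑ c : ι → Fin r, ‖⟪v j, devOp e c x (v j')⟫_ℂ‖ ^ 2 :=
          Finset.sum_congr rfl (fun j _ => Finset.sum_comm)
      _ ≤ ∑ _j : κ, ∑ _j' : κ,
            (Fintype.card (ι → Fin r) : ℝ) * (2 / (r : ℝ)) * (η * ‖x‖ ^ 2) :=
          Finset.sum_le_sum (fun j _ => Finset.sum_le_sum (fun j' _ => hentry j j'))
      _ = ∑ _c : ι → Fin r, 2 * η * (Fintype.card κ : ℝ) ^ 2 / (r : ℝ) * ‖x‖ ^ 2 := by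
          simp only [Finset.sum_const, Finset.card_univ, nsmul_eq_mul]
          field_simp
  obtain ⟨c, -, hc⟩ := Finset.exists_le_of_sum_le Finset.univ_nonempty hsum
  exact ⟨c, hc⟩

end upper

section assemble

variable {ι κ : Type*} [Fintype ι] [DecidableEq ι] [Fintype κ] [DecidableEq κ]
  {e : ι → H →L[ℂ] H} {v : κ → H} {J : ι → κ}

lemma ortho_of_supp (he : OrthoFam e) (hJ : ∀ i j, J i ≠ j → e i (v j) = 0) (j j' : κ)
    (h : j ≠ j') : ⟪v j, v j'⟫_ℂ = 0 := by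
  rw [he.inner_eq_sum]
  refine Finset.sum_eq_zero (fun i _ => ?_)
  by_cases h1 : J i = j
  · rw [hJ i j' (fun h2 => h (h1.symm.trans h2)), inner_zero_right]
  · rw [hJ i j h1, inner_zero_left]

/-- the diagonal entries of the block-diagonal part on the vectors `v j` -/
noncomputable def dcoef (e : ι → H →L[ℂ] H) (x : H →L[ℂ] H) (v : κ → H) (j : κ) : ℝ :=
  ∑ i, (⟪e i (v j), x (e i (v j))⟫_ℂ).re

lemma abs_dcoef_le (he : OrthoFam e) (x : H →L[ℂ] H) (hv1 : ∀ j, ‖v j‖ ≤ 1) (j : κ) :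
    |dcoef e x v j| ≤ ‖x‖ := by
  unfold dcoef
  calc |∑ i, (⟪e i (v j), x (e i (v j))⟫_ℂ).re|
      ≤ ∑ i, |(⟪e i (v j), x (e i (v j))⟫_ℂ).re| := Finset.abs_sum_le_sum_abs _ _
    _ ≤ ∑ i, ‖x‖ * ‖e i (v j)‖ ^ 2 := by
        refine Finset.sum_le_sum (fun i _ => ?_)
        calc |(⟪e i (v j), x (e i (v j))⟫_ℂ).re| ≤ ‖⟪e i (v j), x (e i (v j))⟫_ℂ‖ :=
              Complex.abs_re_le_norm _
          _ ≤ ‖e i (v j)‖ * ‖x (e i (v j))‖ := norm_inner_le_norm _ _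
          _ ≤ ‖e i (v j)‖ * (‖x‖ * ‖e i (v j)‖) :=
              mul_le_mul_of_nonneg_left (x.le_opNorm _) (norm_nonneg _)
          _ = ‖x‖ * ‖e i (v j)‖ ^ 2 := by ring
    _ = ‖x‖ * ‖v j‖ ^ 2 := by rw [← Finset.mul_sum, ← he.norm_sq_eq_sum]
    _ ≤ ‖x‖ := by
        have h1 : ‖v j‖ ^ 2 ≤ 1 := by
          have := hv1 j
          nlinarith [norm_nonneg (v j)]
        calc ‖x‖ * ‖v j‖ ^ 2 ≤ ‖x‖ * 1 := mul_le_mul_of_nonneg_left h1 (norm_nonneg x)
          _ = ‖x‖ := mul_one _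

/-- the approximating element of the algebra -/
noncomputable def aOp (e : ι → H →L[ℂ] H) (x : H →L[ℂ] H) (v : κ → H) (J : ι → κ) (r : ℕ) :
    H →L[ℂ] H :=
  ∑ i, (((1 - 1 / (r : ℝ)) * dcoef e x v (J i) : ℝ) : ℂ) • e i

lemma inner_self_real {x : H →L[ℂ] H} (hx : IsSelfAdjoint x) (y : H) :
    ⟪y, x y⟫_ℂ = (((⟪y, x y⟫_ℂ).re : ℝ) : ℂ) := by
  have h1 : (starRingEnd ℂ) ⟪y, x y⟫_ℂ = ⟪y, x y⟫_ℂ := by
    rw [inner_conj_symm, sa_inner hx]
  exact (Complex.conj_eq_iff_re.mp h1).symm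

lemma inner_aOp (he : OrthoFam e) {x : H →L[ℂ] H} (hx : IsSelfAdjoint x)
    (hv : ∀ j, v j = 0 ∨ ‖v j‖ = 1) (hJ : ∀ i j, J i ≠ j → e i (v j) = 0) (r : ℕ) (j j' : κ) :
    ⟪v j, aOp e x v J r (v j')⟫_ℂ
      = ((1 - 1 / (r : ℝ) : ℝ) : ℂ) * ⟪v j, diagPart e x (v j')⟫_ℂ := by
  have hL : ⟪v j, aOp e x v J r (v j')⟫_ℂ
      = ∑ i, (((1 - 1 / (r : ℝ)) * dcoef e x v (J i) : ℝ) : ℂ) * ⟪e i (v j), e i (v j')⟫_ℂ := by
    unfold aOp
    rw [_root_.sum_apply, inner_sum]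
    refine Finset.sum_congr rfl (fun i _ => ?_)
    rw [_root_.smul_apply, inner_smul_right, he.inner_right]
  have hR : ⟪v j, diagPart e x (v j')⟫_ℂ = ∑ i, ⟪e i (v j), x (e i (v j'))⟫_ℂ := by
    unfold diagPart
    rw [_root_.sum_apply, inner_sum]
    refine Finset.sum_congr rfl (fun i _ => ?_)
    simp only [mul_apply_eq_comp]
    rw [sa_inner (he.sa i)]
  rw [hL, hR]
  by_cases hjj : j = j'
  · subst hjj
    have h1 : ∀ i, (((1 - 1 / (r : ℝ)) * dcoef e x v (J i) : ℝ) : ℂ) * ⟪e i (v j), e i (v j)⟫_ℂ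
        = (((1 - 1 / (r : ℝ)) * dcoef e x v j * ‖e i (v j)‖ ^ 2 : ℝ) : ℂ) := by
      intro i
      by_cases hi : J i = j
      · rw [hi, inner_self_eq_norm_sq_to_K]
        push_cast
        rfl
      · rw [hJ i j hi]
        simp
    have h2 : ∀ i, ⟪e i (v j), x (e i (v j))⟫_ℂ = (((⟪e i (v j), x (e i (v j))⟫_ℂ).re : ℝ) : ℂ) :=
      fun i => inner_self_real hx _
    simp only [h1]
    rw [Finset.sum_congr rfl (fun i _ => h2 i), ← Complex.ofReal_sum, ← Complex.ofReal_sum,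
      ← Complex.ofReal_mul, ← Finset.mul_sum, ← he.norm_sq_eq_sum]
    congr 1
    change (1 - 1 / (r : ℝ)) * dcoef e x v j * ‖v j‖ ^ 2 = (1 - 1 / (r : ℝ)) * dcoef e x v j
    rcases hv j with h0 | h1'
    · have : dcoef e x v j = 0 := by
        unfold dcoef
        rw [h0]
        simp
      rw [this]
      ring
    · rw [h1']
      ring
  · have h1 : ∀ i, ⟪e i (v j), e i (v j')⟫_ℂ = 0 := by
      intro i
      by_cases hi : J i = j
      · rw [hJ i j' (fun h2 => hjj (hi.symm.trans h2)), inner_zero_right]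
      · rw [hJ i j hi, inner_zero_left]
    have h2 : ∀ i, ⟪e i (v j), x (e i (v j'))⟫_ℂ = 0 := by
      intro i
      by_cases hi : J i = j
      · rw [hJ i j' (fun h2 => hjj (hi.symm.trans h2)), map_zero, inner_zero_right]
      · rw [hJ i j hi, inner_zero_left]
    simp [h1, h2]

lemma aOp_isSelfAdjoint (he : OrthoFam e) (x : H →L[ℂ] H) (v : κ → H) (J : ι → κ) (r : ℕ) :
    IsSelfAdjoint (aOp e x v J r) := by
  unfold aOp
  refine isSelfAdjoint_sum _ (fun i _ => ?_)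
  exact IsSelfAdjoint.smul (isSelfAdjoint_iff.mpr (Complex.conj_ofReal _)) (he.sa i)

lemma norm_aOp_le (he : OrthoFam e) (x : H →L[ℂ] H) (hv1 : ∀ j, ‖v j‖ ≤ 1) (J : ι → κ)
    (r : ℕ) (hr : 0 < r) : ‖aOp e x v J r‖ ≤ ‖x‖ := by
  unfold aOp
  refine he.norm_sum_smul_le _ ‖x‖ (norm_nonneg x) (fun i => ?_)
  have hr1 : (1 : ℝ) ≤ r := by exact_mod_cast hr
  have h0 : 0 ≤ 1 - 1 / (r : ℝ) := by
    have : 1 / (r : ℝ) ≤ 1 := by
      rw [div_le_one (by linarith)]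
      exact hr1
    linarith
  have h1 : 1 - 1 / (r : ℝ) ≤ 1 := by
    have : 0 ≤ 1 / (r : ℝ) := by positivity
    linarith
  rw [abs_mul, abs_of_nonneg h0]
  calc (1 - 1 / (r : ℝ)) * |dcoef e x v (J i)| ≤ 1 * ‖x‖ :=
        mul_le_mul h1 (abs_dcoef_le he x hv1 _) (abs_nonneg _) zero_le_one
    _ = ‖x‖ := one_mul _

/-- **Abstract upper bound.**  A fine orthogonal family `e` in `A` and vectors `v j` with
disjoint supports give a partition with `r` pieces, and an element `a`, paving `x` on the span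
of the `v j` up to `(1/r + √(2 η d² / r)) ‖x‖`. -/
theorem exists_paving {A : Set (H →L[ℂ] H)} (hA0 : (0 : H →L[ℂ] H) ∈ A)
    (hAadd : ∀ S T, S ∈ A → T ∈ A → S + T ∈ A)
    (hAsmul : ∀ (t : ℝ) (T : H →L[ℂ] H), T ∈ A → (t : ℂ) • T ∈ A)
    (he : OrthoFam e) (heA : ∀ i, e i ∈ A)
    (hv : ∀ j, v j = 0 ∨ ‖v j‖ = 1) (hJ : ∀ i j, J i ≠ j → e i (v j) = 0)
    (η : ℝ) (hη0 : 0 ≤ η) (hη : ∀ i j, ‖e i (v j)‖ ^ 2 ≤ η)
    (x : H →L[ℂ] H) (hx : IsSelfAdjoint x) (r : ℕ) (hr : 0 < r) :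
    ∃ (p : Fin r → H →L[ℂ] H) (a : H →L[ℂ] H),
      IsPartition A p ∧ a ∈ A ∧ IsSelfAdjoint a ∧ ‖a‖ ≤ ‖x‖ ∧
      ‖spanProj v * (pinching p x - a) * spanProj v‖
        ≤ (1 / (r : ℝ) + Real.sqrt (2 * η * (Fintype.card κ : ℝ) ^ 2 / (r : ℝ))) * ‖x‖ := by
  have : NeZero r := ⟨hr.ne'⟩
  have hv1 : ∀ j, ‖v j‖ ≤ 1 := by
    intro j
    rcases hv j with h | h
    · rw [h]; simp
    · rw [h]
  have hvo := ortho_of_supp he hJ
  obtain ⟨c, hc⟩ := exists_colouring he v x η hη0 hη hv1 r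
  refine ⟨colourProj e c, aOp e x v J r, ?_, ?_, aOp_isSelfAdjoint he x v J r,
    norm_aOp_le he x hv1 J r hr, ?_⟩
  · have hfam := he.colour c
    exact ⟨fun k => ⟨colourProj_mem hA0 hAadd heA c k, hfam.1 k⟩, hfam.2.1, hfam.2.2⟩
  · unfold aOp
    exact Finset.sum_induction _ (fun T => T ∈ A) hAadd hA0 (fun i _ => hAsmul _ _ (heA i))
  · have hq : IsStarProjection (spanProj v) := spanProj_isStarProjection hvo hv
    have hrpos : (0 : ℝ) < r := Nat.cast_pos.mpr hr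
    have hdecomp : spanProj v * (pinching (colourProj e c) x - aOp e x v J r) * spanProj v
        = spanProj v * devOp e c x * spanProj v
          + spanProj v * (((1 - 1 / (r : ℝ) : ℝ) : ℂ) • diagPart e x - aOp e x v J r) * spanProj v
          + ((1 / (r : ℝ) : ℝ) : ℂ) • (spanProj v * x * spanProj v) := by
      unfold devOp
      simp only [mul_sub, sub_mul, mul_smul_comm, smul_mul_assoc]
      abel
    have h2 : spanProj v * (((1 - 1 / (r : ℝ) : ℝ) : ℂ) • diagPart e x - aOp e x v J r)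
        * spanProj v = 0 := by
      apply spanProj_mul_mul_eq_zero hvo hv
      intro j j'
      rw [_root_.sub_apply, _root_.smul_apply, inner_sub_right, inner_smul_right,
        inner_aOp he hx hv hJ, sub_self]
    have h1 : ‖spanProj v * devOp e c x * spanProj v‖
        ≤ Real.sqrt (2 * η * (Fintype.card κ : ℝ) ^ 2 / (r : ℝ)) * ‖x‖ := by
      refine (norm_spanProj_mul_mul_le hvo hv _).trans ?_
      calc Real.sqrt (∑ j, ∑ j', ‖⟪v j, devOp e c x (v j')⟫_ℂ‖ ^ 2)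
          ≤ Real.sqrt (2 * η * (Fintype.card κ : ℝ) ^ 2 / (r : ℝ) * ‖x‖ ^ 2) :=
            Real.sqrt_le_sqrt hc
        _ = Real.sqrt (2 * η * (Fintype.card κ : ℝ) ^ 2 / (r : ℝ)) * ‖x‖ := by
            rw [Real.sqrt_mul' _ (sq_nonneg _), Real.sqrt_sq (norm_nonneg x)]
    have h3 : ‖((1 / (r : ℝ) : ℝ) : ℂ) • (spanProj v * x * spanProj v)‖ ≤ 1 / (r : ℝ) * ‖x‖ := by
      rw [norm_smul, Complex.norm_real, Real.norm_eq_abs, abs_of_nonneg (by positivity)]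
      apply mul_le_mul_of_nonneg_left _ (by positivity)
      have hq1 := proj_opNorm_le hq
      calc ‖spanProj v * x * spanProj v‖ ≤ ‖spanProj v * x‖ * ‖spanProj v‖ := norm_mul_le _ _
        _ ≤ (‖spanProj v‖ * ‖x‖) * ‖spanProj v‖ :=
            mul_le_mul_of_nonneg_right (norm_mul_le _ _) (norm_nonneg _)
        _ ≤ (1 * ‖x‖) * 1 := by
            apply mul_le_mul _ hq1 (norm_nonneg _) (by positivity)
            exact mul_le_mul_of_nonneg_right hq1 (norm_nonneg _)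
        _ = ‖x‖ := by ring
    rw [hdecomp, h2, add_zero]
    calc ‖spanProj v * devOp e c x * spanProj v
          + ((1 / (r : ℝ) : ℝ) : ℂ) • (spanProj v * x * spanProj v)‖
        ≤ ‖spanProj v * devOp e c x * spanProj v‖
          + ‖((1 / (r : ℝ) : ℝ) : ℂ) • (spanProj v * x * spanProj v)‖ := norm_add_le _ _
      _ ≤ (1 / (r : ℝ) + Real.sqrt (2 * η * (Fintype.card κ : ℝ) ^ 2 / (r : ℝ))) * ‖x‖ := by
          linarith

end assemble

end Vale.Agent.Lib.P078
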