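import Mathlib
import Vale.Agent.Lib.P078.Defs
import Vale.Agent.Lib.P078.Proj
import Vale.Agent.Lib.P078.Upper
import Vale.Agent.Lib.P078.Mult

/-!
# P078 helper: the upper bound for `L^∞(μ)` acting on `L²(μ)`, `μ` finite and diffuse
-/

namespace Vale.Agent.Lib.P078

open MeasureTheory
open scoped InnerProductSpace ENNReal

set_option linter.unusedSectionVars false

universe u

variable {X : Type u} [MeasurableSpace X] {μ : Measure X} [IsFiniteMeasure μ]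

/-- the constant function one -/
noncomputable def oneVec (μ : Measure X) [IsFiniteMeasure μ] : Lp ℂ 2 μ :=
  indicatorConstLp 2 MeasurableSet.univ (measure_ne_top μ Set.univ) (1 : ℂ)

lemma oneVec_ae : oneVec μ =ᵐ[μ] fun _ => (1 : ℂ) := by
  have h := indicatorConstLp_coeFn (p := 2) (μ := μ) (s := Set.univ)
    (hs := MeasurableSet.univ) (hμs := measure_ne_top μ Set.univ) (c := (1 : ℂ))
  filter_upwards [h] with x hx
  rw [oneVec, hx]
  simp

/-- the indicator function of a set, as a vector of `L²(μ)` -/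
noncomputable def indVec (μ : Measure X) [IsFiniteMeasure μ] (B : Set X) : Lp ℂ 2 μ :=
  indOp μ B (oneVec μ)

lemma indVec_ae {B : Set X} (hB : MeasurableSet B) :
    indVec μ B =ᵐ[μ] B.indicator (fun _ => (1 : ℂ)) := by
  filter_upwards [indOp_acts hB (oneVec μ), oneVec_ae (μ := μ)] with x h1 h2
  rw [indVec, h1, h2, mul_one]

lemma indOp_indVec {E B : Set X} (hE : MeasurableSet E) (hB : MeasurableSet B) :
    indOp μ E (indVec μ B) = indVec μ (E ∩ B) := by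
  unfold indVec
  rw [← mul_apply_eq_comp, indOp_mul hE hB]

lemma indVec_empty : indVec μ (∅ : Set X) = 0 := by
  unfold indVec
  rw [indOp_empty]
  rfl

lemma norm_indVec {B : Set X} (hB : MeasurableSet B) :
    ‖indVec μ B‖ = Real.sqrt (μ.real B) := by
  have h : indVec μ B = indicatorConstLp 2 hB (measure_ne_top μ B) (1 : ℂ) :=
    Lp.ext ((indVec_ae hB).trans indicatorConstLp_coeFn.symm)
  rw [h, norm_indicatorConstLp (by norm_num) (by norm_num)]
  simp [Real.sqrt_eq_rpow]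

/-- the normalised indicator function (zero for a null set) -/
noncomputable def nVec (μ : Measure X) [IsFiniteMeasure μ] (B : Set X) : Lp ℂ 2 μ :=
  (((Real.sqrt (μ.real B))⁻¹ : ℝ) : ℂ) • indVec μ B

lemma nVec_zero_or_norm {B : Set X} (hB : MeasurableSet B) :
    nVec μ B = 0 ∨ ‖nVec μ B‖ = 1 := by
  by_cases h : μ.real B = 0
  · left
    unfold nVec
    rw [h]
    simp
  · right
    unfold nVec
    have hpos : 0 < Real.sqrt (μ.real B) :=
      Real.sqrt_pos.mpr (lt_of_le_of_ne measureReal_nonneg (Ne.symm h))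
    rw [norm_smul, norm_indVec hB, Complex.norm_real, Real.norm_eq_abs,
      abs_of_nonneg (inv_nonneg.mpr hpos.le)]
    field_simp

lemma indVec_eq_smul_nVec {B : Set X} (hB : MeasurableSet B) :
    indVec μ B = ((Real.sqrt (μ.real B) : ℝ) : ℂ) • nVec μ B := by
  by_cases h : μ.real B = 0
  · have h0 : indVec μ B = 0 := by
      rw [← norm_eq_zero, norm_indVec hB, h, Real.sqrt_zero]
    rw [h0, nVec, h0]
    simp
  · have hpos : 0 < Real.sqrt (μ.real B) :=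
      Real.sqrt_pos.mpr (lt_of_le_of_ne measureReal_nonneg (Ne.symm h))
    unfold nVec
    rw [smul_smul, ← Complex.ofReal_mul, mul_inv_cancel₀ hpos.ne']
    simp

lemma indOp_nVec {E B : Set X} (hE : MeasurableSet E) (hB : MeasurableSet B) :
    indOp μ E (nVec μ B) = (((Real.sqrt (μ.real B))⁻¹ : ℝ) : ℂ) • indVec μ (E ∩ B) := by
  unfold nVec
  rw [map_smul, indOp_indVec hE hB]

lemma norm_sq_indOp_nVec {E B : Set X} (hE : MeasurableSet E) (hB : MeasurableSet B) :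
    ‖indOp μ E (nVec μ B)‖ ^ 2 = μ.real (E ∩ B) / μ.real B := by
  rw [indOp_nVec hE hB, norm_smul, norm_indVec (hE.inter hB), Complex.norm_real,
    Real.norm_eq_abs, abs_of_nonneg (inv_nonneg.mpr (Real.sqrt_nonneg _)), mul_pow,
    Real.sq_sqrt measureReal_nonneg, inv_pow, Real.sq_sqrt measureReal_nonneg]
  ring

lemma exists_pos_lower {K : Type*} [Fintype K] (f : K → ℝ) (hf : ∀ k, 0 ≤ f k) :
    ∃ m : ℝ, 0 < m ∧ ∀ k, f k = 0 ∨ m ≤ f k := by
  classical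
  by_cases h : (Finset.univ.filter (fun k => f k ≠ 0)).Nonempty
  · obtain ⟨k₀, hk₀, hmin⟩ := Finset.exists_min_image _ f h
    refine ⟨f k₀, lt_of_le_of_ne (hf k₀) (Ne.symm (Finset.mem_filter.mp hk₀).2), fun k => ?_⟩
    by_cases hk : f k = 0
    · left; exact hk
    · right; exact hmin k (Finset.mem_filter.mpr ⟨Finset.mem_univ k, hk⟩)
  · refine ⟨1, one_pos, fun k => ?_⟩
    left
    by_contra hk
    exact h ⟨k, Finset.mem_filter.mpr ⟨Finset.mem_univ k, hk⟩⟩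

/-- simultaneous approximation of finitely many vectors by functions that are constant on the
cells of one finite measurable partition -/
lemma exists_cells (F : Finset (Lp ℂ 2 μ)) (δ : ℝ) (hδ : 0 < δ) :
    ∃ (K : Type u) (_ : Fintype K) (B : K → Set X), (∀ ρ, MeasurableSet (B ρ)) ∧
      (∀ ρ ρ', ρ ≠ ρ' → Disjoint (B ρ) (B ρ')) ∧ (⋃ ρ, B ρ) = Set.univ ∧
      ∀ ξ ∈ F, ∃ s : Lp ℂ 2 μ, ‖ξ - s‖ < δ ∧
        ∀ ρ, ∃ c : ℂ, indOp μ (B ρ) s = c • indVec μ (B ρ) := by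
  classical
  have hdense := Lp.simpleFunc.denseRange (E := ℂ) (μ := μ) (p := 2) (by norm_num)
  have hex : ∀ ξ : Lp ℂ 2 μ, ∃ s : Lp.simpleFunc ℂ 2 μ, ‖ξ - (s : Lp ℂ 2 μ)‖ < δ := by
    intro ξ
    obtain ⟨s, hs⟩ := hdense.exists_dist_lt ξ hδ
    exact ⟨s, by rwa [dist_eq_norm] at hs⟩
  choose sf hsf using hex
  let σ : Lp ℂ 2 μ → SimpleFunc X ℂ := fun ξ => Lp.simpleFunc.toSimpleFunc (sf ξ)
  have hBm : ∀ ρ : (ξ : F) → ((σ ξ).range : Finset ℂ),
      MeasurableSet (⋂ ξ : F, (σ ξ) ⁻¹' {(ρ ξ : ℂ)}) :=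
    fun ρ => MeasurableSet.iInter (fun ξ => (σ ξ).measurableSet_fiber _)
  refine ⟨(ξ : F) → ((σ ξ).range : Finset ℂ), inferInstance,
    fun ρ => ⋂ ξ : F, (σ ξ) ⁻¹' {(ρ ξ : ℂ)}, hBm, ?_, ?_, ?_⟩
  · intro ρ ρ' hne
    obtain ⟨ξ, hξ⟩ := Function.ne_iff.mp hne
    rw [Set.disjoint_left]
    intro x hx hx'
    apply hξ
    have h1 := Set.mem_iInter.mp hx ξ
    have h2 := Set.mem_iInter.mp hx' ξ
    simp only [Set.mem_preimage, Set.mem_singleton_iff] at h1 h2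
    exact Subtype.ext (h1.symm.trans h2)
  · apply Set.eq_univ_of_forall
    intro x
    refine Set.mem_iUnion.mpr ⟨fun ξ => ⟨σ ξ x, SimpleFunc.mem_range_self _ x⟩, ?_⟩
    exact Set.mem_iInter.mpr (fun ξ => rfl)
  · intro ξ hξ
    refine ⟨(sf ξ : Lp ℂ 2 μ), hsf ξ, fun ρ => ⟨(ρ ⟨ξ, hξ⟩ : ℂ), ?_⟩⟩
    apply Lp.ext
    filter_upwards [indOp_acts (hBm ρ) (sf ξ : Lp ℂ 2 μ),
      Lp.simpleFunc.toSimpleFunc_eq_toFun (sf ξ),
      Lp.coeFn_smul (ρ ⟨ξ, hξ⟩ : ℂ) (indVec μ (⋂ ξ : F, (σ ξ) ⁻¹' {(ρ ξ : ℂ)})),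
      indVec_ae (μ := μ) (hBm ρ)] with x h1 h2 h3 h4
    rw [h1, h3, Pi.smul_apply, h4, ← h2]
    by_cases hx : x ∈ ⋂ ξ : F, (σ ξ) ⁻¹' {(ρ ξ : ℂ)}
    · have h5 := Set.mem_iInter.mp hx ⟨ξ, hξ⟩
      simp only [Set.mem_preimage, Set.mem_singleton_iff] at h5
      rw [Set.indicator_of_mem hx, one_mul, smul_eq_mul, mul_one]
      exact h5
    · rw [Set.indicator_of_notMem hx, zero_mul, smul_zero]

/-- `μ` is diffuse in the quantitative sense: the space can be cut into finitely many measurable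
pieces of arbitrarily small measure -/
def HasSmallPartitions (μ : Measure X) : Prop :=
  ∀ η : ℝ, 0 < η → ∃ (N : ℕ) (I : Fin N → Set X), (∀ k, MeasurableSet (I k)) ∧
    (∀ k l, k ≠ l → Disjoint (I k) (I l)) ∧ (⋃ k, I k) = Set.univ ∧ ∀ k, μ.real (I k) ≤ η

/-- **Upper bound.**  For a finite diffuse measure, every self-adjoint operator on `L²(μ)` is
`(ε, r)` so-pavable over `L^∞(μ)` as soon as `r ε > 1`. -/
theorem soPavable_multAlg (hμ : HasSmallPartitions μ) (x : Lp ℂ 2 μ →L[ℂ] Lp ℂ 2 μ)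
    (hx : IsSelfAdjoint x) (ε : ℝ) (r : ℕ) (hr : 1 < (r : ℝ) * ε) :
    SoPavable Set.univ (multAlg μ) x ε r := by
  classical
  intro F δ hδ
  have hrpos : 0 < r := by
    rcases Nat.eq_zero_or_pos r with h | h
    · subst h
      simp at hr
      linarith
    · exact h
  have hrR : (0 : ℝ) < r := Nat.cast_pos.mpr hrpos
  have hgap : 0 < ε - 1 / (r : ℝ) := by
    rw [sub_pos, div_lt_iff₀ hrR]
    linarith
  obtain ⟨K, hKfin, B, hBm, hBd, hBU, hBF⟩ := exists_cells (μ := μ) F δ hδ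
  have hηpos : 0 < (r : ℝ) * (ε - 1 / (r : ℝ)) ^ 2 / (2 * ((Fintype.card K : ℝ) ^ 2 + 1)) := by
    positivity
  obtain ⟨m, hmpos, hm⟩ := exists_pos_lower (fun ρ => μ.real (B ρ)) (fun ρ => measureReal_nonneg)
  obtain ⟨N, I, hIm, hId, hIU, hIη⟩ := hμ _ (mul_pos hηpos hmpos)
  have hEm : ∀ i : K × Fin N, MeasurableSet (B i.1 ∩ I i.2) := fun i => (hBm i.1).inter (hIm i.2)
  have hEd : ∀ i j : K × Fin N, i ≠ j → Disjoint (B i.1 ∩ I i.2) (B j.1 ∩ I j.2) := by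
    intro i j hij
    by_cases h1 : i.1 = j.1
    · have h2 : i.2 ≠ j.2 := fun h2 => hij (Prod.ext h1 h2)
      exact (hId _ _ h2).mono Set.inter_subset_right Set.inter_subset_right
    · exact (hBd _ _ h1).mono Set.inter_subset_left Set.inter_subset_left
  have hEU : (⋃ i : K × Fin N, B i.1 ∩ I i.2) = Set.univ := by
    apply Set.eq_univ_of_forall
    intro x
    have h1 : x ∈ ⋃ ρ, B ρ := by rw [hBU]; trivial
    have h2 : x ∈ ⋃ k, I k := by rw [hIU]; trivial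
    obtain ⟨ρ, hρ⟩ := Set.mem_iUnion.mp h1
    obtain ⟨k, hk⟩ := Set.mem_iUnion.mp h2
    exact Set.mem_iUnion.mpr ⟨(ρ, k), hρ, hk⟩
  have he : OrthoFam (fun i : K × Fin N => indOp μ (B i.1 ∩ I i.2)) :=
    orthoFam_indOp _ hEm hEd hEU
  have hv : ∀ ρ, nVec μ (B ρ) = 0 ∨ ‖nVec μ (B ρ)‖ = 1 := fun ρ => nVec_zero_or_norm (hBm ρ)
  have hJ : ∀ (i : K × Fin N) (ρ : K), i.1 ≠ ρ → indOp μ (B i.1 ∩ I i.2) (nVec μ (B ρ)) = 0 := by
    intro i ρ hne
    rw [indOp_nVec (hEm i) (hBm ρ)]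
    have h0 : B i.1 ∩ I i.2 ∩ B ρ = ∅ := by
      apply Set.eq_empty_of_forall_notMem
      intro x hx
      exact Set.disjoint_left.mp (hBd _ _ hne) hx.1.1 hx.2
    rw [h0, indVec_empty, smul_zero]
  have hηb : ∀ (i : K × Fin N) (ρ : K), ‖indOp μ (B i.1 ∩ I i.2) (nVec μ (B ρ))‖ ^ 2
      ≤ (r : ℝ) * (ε - 1 / (r : ℝ)) ^ 2 / (2 * ((Fintype.card K : ℝ) ^ 2 + 1)) := by
    intro i ρ
    rw [norm_sq_indOp_nVec (hEm i) (hBm ρ)]
    rcases hm ρ with h0 | hmρ
    · rw [h0, div_zero]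
      exact hηpos.le
    · have hpos : 0 < μ.real (B ρ) := lt_of_lt_of_le hmpos hmρ
      rw [div_le_iff₀ hpos]
      calc μ.real (B i.1 ∩ I i.2 ∩ B ρ) ≤ μ.real (I i.2) :=
            measureReal_mono (fun x hx => hx.1.2)
        _ ≤ _ * m := hIη _
        _ ≤ _ * μ.real (B ρ) := mul_le_mul_of_nonneg_left hmρ hηpos.le
  obtain ⟨p, a, hp, haA, hasa, hanorm, hmain⟩ :=
    exists_paving (A := multAlg μ) (J := fun i : K × Fin N => i.1) multAlg_zero multAlg_add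
      multAlg_smul he (fun i => indOp_mem (hEm i)) hv hJ _ hηpos.le hηb x hx r hrpos
  have hvo := ortho_of_supp he hJ
  have hq : IsStarProjection (spanProj (fun ρ => nVec μ (B ρ))) :=
    spanProj_isStarProjection hvo hv
  refine ⟨p, a, spanProj (fun ρ => nVec μ (B ρ)), hp, haA, hasa, hanorm, Set.mem_univ _, hq,
    ?_, ?_⟩
  · intro ξ hξ
    obtain ⟨s, hs, hsc⟩ := hBF ξ hξ
    have hqs : spanProj (fun ρ => nVec μ (B ρ)) s = s := by
      have h1 : s = ∑ ρ, indOp μ (B ρ) s := by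
        have := congrArg (fun T : Lp ℂ 2 μ →L[ℂ] Lp ℂ 2 μ => T s)
          (sum_indOp (μ := μ) B hBm hBd hBU)
        simpa using this.symm
      have h2 : ∀ ρ, spanProj (fun ρ => nVec μ (B ρ)) (indOp μ (B ρ) s) = indOp μ (B ρ) s := by
        intro ρ
        obtain ⟨c, hc⟩ := hsc ρ
        rw [hc, map_smul, indVec_eq_smul_nVec (hBm ρ), map_smul]
        congr 2
        exact spanProj_apply_self hvo hv ρ
      conv_lhs => rw [h1]
      rw [map_sum]
      conv_rhs => rw [h1]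
      exact Finset.sum_congr rfl (fun ρ _ => h2 ρ)
    have h3 : (1 - spanProj (fun ρ => nVec μ (B ρ))) ξ
        = (1 - spanProj (fun ρ => nVec μ (B ρ))) (ξ - s) := by
      simp only [_root_.sub_apply, one_apply_eq_self, map_sub, hqs]
      abel
    rw [h3]
    exact lt_of_le_of_lt (proj_norm_le hq.one_sub _) hs
  · refine hmain.trans ?_
    apply mul_le_mul_of_nonneg_right _ (norm_nonneg x)
    have hd : (0 : ℝ) ≤ (Fintype.card K : ℝ) ^ 2 := by positivity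
    have h4 : Real.sqrt (2 * ((r : ℝ) * (ε - 1 / (r : ℝ)) ^ 2
        / (2 * ((Fintype.card K : ℝ) ^ 2 + 1))) * (Fintype.card K : ℝ) ^ 2 / (r : ℝ))
        ≤ ε - 1 / (r : ℝ) := by
      have h5 : 2 * ((r : ℝ) * (ε - 1 / (r : ℝ)) ^ 2
          / (2 * ((Fintype.card K : ℝ) ^ 2 + 1))) * (Fintype.card K : ℝ) ^ 2 / (r : ℝ)
          = (ε - 1 / (r : ℝ)) ^ 2
            * ((Fintype.card K : ℝ) ^ 2 / ((Fintype.card K : ℝ) ^ 2 + 1)) := by
        field_simp
      rw [h5]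
      calc Real.sqrt ((ε - 1 / (r : ℝ)) ^ 2
              * ((Fintype.card K : ℝ) ^ 2 / ((Fintype.card K : ℝ) ^ 2 + 1)))
          ≤ Real.sqrt ((ε - 1 / (r : ℝ)) ^ 2 * 1) := by
            apply Real.sqrt_le_sqrt
            apply mul_le_mul_of_nonneg_left _ (sq_nonneg _)
            rw [div_le_one (by positivity)]
            linarith
        _ = ε - 1 / (r : ℝ) := by rw [mul_one, Real.sqrt_sq hgap.le]
    linarith

end Vale.Agent.Lib.P078
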