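import Mathlib
import Vale.Agent.Lib.P078.Mult
import Vale.Agent.Lib.P078.UpperConcrete

/-!
# P078 helper: the multiplication algebra `L^∞(μ)` on `L²(μ)` contains its commutant

For a finite measure `μ`, every bounded operator on `L²(μ)` that commutes with all multiplication
operators is itself a multiplication operator (so `L^∞(μ)` is a maximal abelian subalgebra).
-/

namespace Vale.Agent.Lib.P078

open MeasureTheory
open scoped InnerProductSpace ENNReal

set_option linter.unusedSectionVars false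

variable {X : Type*} [MeasurableSpace X] {μ : MeasureTheory.Measure X}

/-- commutation with the indicator projections moves `T 1_E` to `1_E · T 1` -/
lemma comm_indVec [MeasureTheory.IsFiniteMeasure μ] (T : Lp ℂ 2 μ →L[ℂ] Lp ℂ 2 μ)
    (h : ∀ S ∈ multAlg μ, S * T = T * S) {E : Set X} (hE : MeasurableSet E) :
    T (indVec μ E) = indOp μ E (T (oneVec μ)) := by
  have h1 := h (indOp μ E) (indOp_mem hE)
  have h2 := congrArg (fun S : Lp ℂ 2 μ →L[ℂ] Lp ℂ 2 μ => S (oneVec μ)) h1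
  exact h2.symm

/-- the function `T 1` is essentially bounded by the operator norm of `T` -/
lemma norm_apply_oneVec_le [MeasureTheory.IsFiniteMeasure μ] (T : Lp ℂ 2 μ →L[ℂ] Lp ℂ 2 μ)
    (h : ∀ S ∈ multAlg μ, S * T = T * S) :
    ∀ᵐ x ∂μ, ‖T (oneVec μ) x‖ ≤ ‖T‖ := by
  have hnull : ∀ ε : ℝ, 0 < ε → μ {x | ‖T‖ + ε ≤ ‖T (oneVec μ) x‖} = 0 := by
    intro ε hε
    have hEm : MeasurableSet {x | ‖T‖ + ε ≤ ‖T (oneVec μ) x‖} :=
      measurableSet_le measurable_const (Lp.stronglyMeasurable (T (oneVec μ))).measurable.norm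
    have hc : 0 < ‖T‖ + ε := by positivity
    have h1 : ∀ᵐ x ∂μ, ‖indVec μ {x | ‖T‖ + ε ≤ ‖T (oneVec μ) x‖} x‖
        ≤ (‖T‖ + ε)⁻¹ * ‖indOp μ {x | ‖T‖ + ε ≤ ‖T (oneVec μ) x‖} (T (oneVec μ)) x‖ := by
      filter_upwards [indVec_ae (μ := μ) hEm, indOp_acts hEm (T (oneVec μ))] with x hx1 hx2
      rw [hx1, hx2]
      by_cases hx : x ∈ {x | ‖T‖ + ε ≤ ‖T (oneVec μ) x‖}
      · rw [Set.indicator_of_mem hx, one_mul, norm_one, ← div_eq_inv_mul, le_div_iff₀ hc, one_mul]
        exact hx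
      · rw [Set.indicator_of_notMem hx, zero_mul, norm_zero, mul_zero]
    have h2 := Lp.norm_le_mul_norm_of_ae_le_mul h1
    rw [← comm_indVec T h hEm] at h2
    have h4 : ‖T (indVec μ {x | ‖T‖ + ε ≤ ‖T (oneVec μ) x‖})‖
        ≤ ‖T‖ * ‖indVec μ {x | ‖T‖ + ε ≤ ‖T (oneVec μ) x‖}‖ := T.le_opNorm _
    have h5 : ‖indVec μ {x | ‖T‖ + ε ≤ ‖T (oneVec μ) x‖}‖ = 0 := by
      by_contra hne
      have hpos : 0 < ‖indVec μ {x | ‖T‖ + ε ≤ ‖T (oneVec μ) x‖}‖ :=
        lt_of_le_of_ne (norm_nonneg _) (Ne.symm hne)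
      have h6 : ‖indVec μ {x | ‖T‖ + ε ≤ ‖T (oneVec μ) x‖}‖
          ≤ (‖T‖ + ε)⁻¹ * (‖T‖ * ‖indVec μ {x | ‖T‖ + ε ≤ ‖T (oneVec μ) x‖}‖) :=
        h2.trans (mul_le_mul_of_nonneg_left h4 (inv_nonneg.mpr hc.le))
      rw [← div_eq_inv_mul, le_div_iff₀ hc] at h6
      nlinarith
    rw [norm_indVec hEm, Real.sqrt_eq_zero measureReal_nonneg] at h5
    exact (measureReal_eq_zero_iff).mp h5
  have hall : ∀ᵐ x ∂μ, ∀ n : ℕ, ¬ (‖T‖ + 1 / ((n : ℝ) + 1) ≤ ‖T (oneVec μ) x‖) := by
    rw [ae_all_iff]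
    intro n
    exact measure_eq_zero_iff_ae_notMem.mp (hnull _ (by positivity))
  filter_upwards [hall] with x hx
  by_contra hlt
  rw [not_le] at hlt
  obtain ⟨n, hn⟩ := exists_nat_one_div_lt (sub_pos.mpr hlt)
  exact hx n (by linarith)

/-- **The commutant of the multiplication algebra is the multiplication algebra.**  For a finite
measure `μ`, a bounded operator on `L²(μ)` commuting with every multiplication operator by an
essentially bounded function is itself such a multiplication operator. -/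
theorem multAlg_commutant [MeasureTheory.IsFiniteMeasure μ] (T : Lp ℂ 2 μ →L[ℂ] Lp ℂ 2 μ)
    (h : ∀ S ∈ multAlg μ, S * T = T * S) : T ∈ multAlg μ := by
  have hmem : MemLp (T (oneVec μ) : X → ℂ) ⊤ μ :=
    memLp_top_of_bound (Lp.aestronglyMeasurable _) ‖T‖ (norm_apply_oneVec_le T h)
  have hind : ∀ {E : Set X}, MeasurableSet E →
      T (indVec μ E) = mulOp μ (T (oneVec μ)) (indVec μ E) := by
    intro E hE
    rw [comm_indVec T h hE]
    apply Lp.ext
    filter_upwards [indOp_acts hE (T (oneVec μ)), mulOp_acts hmem (indVec μ E),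
      indVec_ae (μ := μ) hE] with x h1 h2 h3
    rw [h1, h2, h3, mul_comm]
  have hall : ∀ f : Lp ℂ 2 μ, T f = mulOp μ (T (oneVec μ)) f := by
    have : Fact ((1 : ℝ≥0∞) ≤ 2) := ⟨by norm_num⟩
    refine Lp.induction (by norm_num)
      (motive := fun f => T f = mulOp μ (T (oneVec μ)) f) ?_ ?_ ?_
    · intro c s hs hμs
      have hcs : ((Lp.simpleFunc.indicatorConst 2 hs hμs.ne c : Lp.simpleFunc ℂ 2 μ) : Lp ℂ 2 μ)
          = c • indVec μ s := by
        apply Lp.ext
        rw [Lp.simpleFunc.coe_indicatorConst]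
        filter_upwards [indicatorConstLp_coeFn (p := 2) (μ := μ) (hs := hs) (hμs := hμs.ne)
          (c := c), Lp.coeFn_smul c (indVec μ s), indVec_ae (μ := μ) hs] with x h1 h2 h3
        rw [h1, h2, Pi.smul_apply, h3]
        by_cases hx : x ∈ s <;> simp [Set.indicator, hx]
      rw [hcs, map_smul, map_smul, hind hs]
    · intro f g hf hg _ h1 h2
      rw [map_add, map_add, h1, h2]
    · exact isClosed_eq T.continuous (mulOp μ (T (oneVec μ))).continuous
  refine ⟨T (oneVec μ), hmem, fun g => ?_⟩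
  rw [hall g]
  exact mulOp_acts hmem g

end Vale.Agent.Lib.P078
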