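import Mathlib

/-!
A finite orthonormal family on which a set of operators is diagonal can be replaced, by a
discrete Fourier transform, by an orthonormal family on which every operator of the set
has constant diagonal.
-/

namespace Vale.Agent.Lib.P078

open scoped InnerProductSpace ComplexConjugate

variable {H : Type*} [NormedAddCommGroup H] [InnerProductSpace ℂ H] [CompleteSpace H]

theorem exists_flat_family {N : ℕ} (g : Fin N → H) (hg : Orthonormal ℂ g)
    (A : Set (H →L[ℂ] H))
    (hA : ∀ a ∈ A, ∀ j j', j ≠ j' → ⟪g j, a (g j')⟫_ℂ = 0) :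
    ∃ w : Fin N → H, Orthonormal ℂ w ∧
      ∀ a ∈ A, ∀ i i', ⟪w i, a (w i)⟫_ℂ = ⟪w i', a (w i')⟫_ℂ := by
  classical
  rcases Nat.eq_zero_or_pos N with hN | hN
  · subst hN
    exact ⟨g, hg, fun a _ i => i.elim0⟩
  set ζ : ℂ := Complex.exp (2 * Real.pi * Complex.I / N) with hζdef
  have hζ : IsPrimitiveRoot ζ N := Complex.isPrimitiveRoot_exp N hN.ne'
  have hζN : ζ ^ N = 1 := hζ.pow_eq_one
  have hnorm : ‖ζ‖ = 1 := Complex.norm_eq_one_of_pow_eq_one hζN hN.ne'
  have hconj : conj ζ = ζ⁻¹ := (Complex.inv_eq_conj hnorm).symm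
  have hζ0 : ζ ≠ 0 := by
    intro h
    rw [h, norm_zero] at hnorm
    exact zero_ne_one hnorm
  have hinv : ∀ m : ℕ, ζ⁻¹ ^ m * ζ ^ m = 1 := fun m => by
    rw [← mul_pow, inv_mul_cancel₀ hζ0, one_pow]
  set c : ℝ := (Real.sqrt N)⁻¹ with hc
  have hc2 : ((c : ℂ)) ^ 2 * N = 1 := by
    have h1 : c ^ 2 * N = 1 := by
      rw [hc, inv_pow, Real.sq_sqrt (Nat.cast_nonneg N)]
      exact inv_mul_cancel₀ (Nat.cast_ne_zero.mpr hN.ne')
    exact_mod_cast h1
  set α : Fin N → Fin N → ℂ := fun k j => (c : ℂ) * ζ ^ (j.val * k.val) with hα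
  have hprod : ∀ k l j : Fin N,
      conj (α k j) * α l j = (c : ℂ) ^ 2 * (ζ⁻¹ ^ k.val * ζ ^ l.val) ^ j.val := by
    intro k l j
    simp only [hα]
    rw [map_mul, map_pow, Complex.conj_ofReal, hconj, pow_mul' ζ⁻¹, pow_mul' ζ, mul_pow]
    ring
  refine ⟨fun k => ∑ j, α k j • g j, ?_, ?_⟩
  · rw [orthonormal_iff_ite]
    intro k l
    rw [hg.inner_sum]
    simp_rw [hprod]
    rw [← Finset.mul_sum, Fin.sum_univ_eq_sum_range (fun j => (ζ⁻¹ ^ k.val * ζ ^ l.val) ^ j) N]
    by_cases hkl : k = l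
    · subst hkl
      rw [if_pos rfl, hinv]
      simp only [one_pow, Finset.sum_const, Finset.card_range, nsmul_eq_mul, mul_one]
      exact hc2
    · rw [if_neg hkl]
      set z := ζ⁻¹ ^ k.val * ζ ^ l.val with hz
      have hz1 : z ≠ 1 := by
        intro h
        apply hkl
        have h3 : ζ ^ k.val = ζ ^ l.val := by
          have h2 : ζ ^ l.val = ζ ^ k.val * z := by
            rw [hz, ← mul_assoc, ← mul_pow, mul_inv_cancel₀ hζ0, one_pow, one_mul]
          rw [h2, h, mul_one]
        exact Fin.ext (hζ.pow_inj k.isLt l.isLt h3)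
      have hzN : z ^ N = 1 := by
        rw [hz, mul_pow, ← pow_mul, ← pow_mul, mul_comm k.val, mul_comm l.val, pow_mul, pow_mul,
          inv_pow, hζN]
        simp
      have hgeom := geom_sum_mul z N
      rw [hzN, sub_self] at hgeom
      rcases mul_eq_zero.mp hgeom with h | h
      · rw [h, mul_zero]
      · exact absurd (sub_eq_zero.mp h) hz1
  · intro a ha i i'
    have hval : ∀ k : Fin N, ⟪∑ j, α k j • g j, a (∑ j, α k j • g j)⟫_ℂ
        = (c : ℂ) ^ 2 * ∑ j, ⟪g j, a (g j)⟫_ℂ := by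
      intro k
      rw [map_sum, sum_inner, Finset.mul_sum]
      refine Finset.sum_congr rfl fun j _ => ?_
      rw [inner_sum, Finset.sum_eq_single j]
      · rw [map_smul, inner_smul_left, inner_smul_right, ← mul_assoc, hprod k k j, hinv, one_pow,
          mul_one]
      · intro j' _ hj'
        rw [map_smul, inner_smul_left, inner_smul_right, hA a ha j j' (Ne.symm hj'), mul_zero,
          mul_zero]
      · intro h
        exact absurd (Finset.mem_univ j) h
    exact (hval i).trans (hval i').symm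

end Vale.Agent.Lib.P078
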