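import Mathlib
import Vale.Agent.Lib.P078.Defs
import Vale.Agent.Lib.P078.Proj

/-!
# P078 helper: the abstract lower bound

If `ω` is a unit vector and there are arbitrarily long orthonormal families `w` on which every
element of `A` has the same diagonal coefficient as on `ω`, then the symmetry `2 |ω⟩⟨ω| - 1` is
not `(ε, r)` so-pavable as soon as `r ε < 1`.
-/

namespace Vale.Agent.Lib.P078

open scoped InnerProductSpace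

set_option linter.unusedSectionVars false

variable {H : Type*} [NormedAddCommGroup H] [InnerProductSpace ℂ H] [CompleteSpace H]

/-- the symmetry `2 |ω⟩⟨ω| - 1` -/
noncomputable def symOp (ω : H) : H →L[ℂ] H :=
  (2 : ℂ) • InnerProductSpace.rankOne ℂ ω ω - 1

lemma symOp_apply (ω u : H) : symOp ω u = (2 * ⟪ω, u⟫_ℂ) • ω - u := by
  unfold symOp
  simp [mul_smul]

lemma symOp_isSelfAdjoint (ω : H) : IsSelfAdjoint (symOp ω) := by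
  apply isSelfAdjoint_of_inner
  intro y z
  simp only [symOp_apply, inner_sub_left, inner_sub_right, inner_smul_left, inner_smul_right,
    map_mul, inner_conj_symm, Complex.conj_ofNat]
  ring

lemma inner_symOp_self (ω y : H) :
    ⟪y, symOp ω y⟫_ℂ = ((2 * ‖⟪ω, y⟫_ℂ‖ ^ 2 - ‖y‖ ^ 2 : ℝ) : ℂ) := by
  rw [symOp_apply, inner_sub_right, inner_smul_right, inner_self_eq_norm_sq_to_K,
    ← inner_conj_symm y ω, mul_assoc, Complex.mul_conj']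
  push_cast
  rfl

lemma symOp_symOp (ω : H) (hω : ‖ω‖ = 1) (u : H) : symOp ω (symOp ω u) = u := by
  have h1 : ⟪ω, ω⟫_ℂ = 1 := by
    rw [inner_self_eq_norm_sq_to_K, hω]
    simp
  have h2 : ⟪ω, symOp ω u⟫_ℂ = ⟪ω, u⟫_ℂ := by
    rw [symOp_apply, inner_sub_right, inner_smul_right, h1]
    ring
  rw [symOp_apply ω (symOp ω u), h2, symOp_apply, sub_sub_cancel]

lemma norm_symOp_le (ω : H) (hω : ‖ω‖ = 1) : ‖symOp ω‖ ≤ 1 := by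
  refine ContinuousLinearMap.opNorm_le_bound _ zero_le_one (fun u => ?_)
  rw [one_mul]
  have h : ‖symOp ω u‖ ^ 2 = ‖u‖ ^ 2 := by
    have h1 : ∀ z : H, ‖z‖ ^ 2 = (⟪z, z⟫_ℂ).re := fun z => by
      simpa using (inner_self_eq_norm_sq (𝕜 := ℂ) z).symm
    rw [h1, h1, sa_inner (symOp_isSelfAdjoint ω), symOp_symOp ω hω]
  exact le_of_eq (by
    have := congrArg Real.sqrt h
    rwa [Real.sqrt_sq (norm_nonneg _), Real.sqrt_sq (norm_nonneg _)] at this)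

/-- the diagonal sum `∑ k, |⟨p k ω, ξ⟩|²` -/
noncomputable def sfun {r : ℕ} (p : Fin r → H →L[ℂ] H) (ω ξ : H) : ℝ :=
  ∑ k, ‖⟪p k ω, ξ⟫_ℂ‖ ^ 2

lemma inner_pinching_symOp {r : ℕ} {p : Fin r → H →L[ℂ] H} (hp : OrthoFam p) (ω ξ : H) :
    ⟪ξ, pinching p (symOp ω) ξ⟫_ℂ = ((2 * sfun p ω ξ - ‖ξ‖ ^ 2 : ℝ) : ℂ) := by
  unfold pinching sfun
  rw [_root_.sum_apply, inner_sum]
  have h : ∀ k, ⟪ξ, (p k * symOp ω * p k) ξ⟫_ℂ
      = ((2 * ‖⟪p k ω, ξ⟫_ℂ‖ ^ 2 - ‖p k ξ‖ ^ 2 : ℝ) : ℂ) := by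
    intro k
    simp only [mul_apply_eq_comp]
    rw [← sa_inner (hp.sa k), inner_symOp_self, sa_inner (hp.sa k) ω ξ]
  simp only [h]
  rw [← Complex.ofReal_sum]
  congr 1
  rw [Finset.sum_sub_distrib, ← Finset.mul_sum, ← hp.norm_sq_eq_sum]

lemma sfun_self_ge {r : ℕ} {p : Fin r → H →L[ℂ] H} (hp : OrthoFam p) (ω : H) (hω : ‖ω‖ = 1)
    (hr : 0 < r) : 1 / (r : ℝ) ≤ sfun p ω ω := by
  unfold sfun
  have h1 : ∀ k, ‖⟪p k ω, ω⟫_ℂ‖ ^ 2 = (‖p k ω‖ ^ 2) ^ 2 := by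
    intro k
    rw [hp.inner_left k ω ω, inner_self_eq_norm_sq_to_K]
    simp
  simp only [h1]
  have h2 := sq_sum_le_card_mul_sum_sq (s := (Finset.univ : Finset (Fin r)))
    (f := fun k => ‖p k ω‖ ^ 2)
  rw [← hp.norm_sq_eq_sum ω, hω] at h2
  simp only [one_pow, Finset.card_univ, Fintype.card_fin] at h2
  have hrR : (0 : ℝ) < r := Nat.cast_pos.mpr hr
  rw [div_le_iff₀ hrR]
  linarith

lemma sum_sfun_le {r : ℕ} {p : Fin r → H →L[ℂ] H} (hp : OrthoFam p) (ω : H) (hω : ‖ω‖ = 1)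
    {N : ℕ} (w : Fin N → H) (hw : Orthonormal ℂ w) : ∑ i, sfun p ω (w i) ≤ 1 := by
  unfold sfun
  rw [Finset.sum_comm]
  calc ∑ k, ∑ i, ‖⟪p k ω, w i⟫_ℂ‖ ^ 2 ≤ ∑ k, ‖p k ω‖ ^ 2 := by
        refine Finset.sum_le_sum (fun k _ => ?_)
        have h := hw.sum_inner_products_le (x := p k ω) (s := Finset.univ)
        refine le_trans (le_of_eq ?_) h
        exact Finset.sum_congr rfl (fun i _ => by rw [norm_inner_symm])
    _ = 1 := by rw [← hp.norm_sq_eq_sum, hω]; norm_num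

lemma norm_inner_le_of_compress {q E : H →L[ℂ] H} (hq : IsStarProjection q) (ξ : H)
    (hξ : ‖ξ‖ ≤ 1) (δ : ℝ) (hδ : ‖(1 - q) ξ‖ ≤ δ) (B : ℝ) (hE : ‖E‖ ≤ B) (ε' : ℝ)
    (hqE : ‖q * E * q‖ ≤ ε') : ‖⟪ξ, E ξ⟫_ℂ‖ ≤ ε' + 2 * B * δ := by
  have hB : 0 ≤ B := le_trans (norm_nonneg _) hE
  have hδ0 : 0 ≤ δ := le_trans (norm_nonneg _) hδ
  have hζ : (1 - q) ξ = ξ - q ξ := by simp
  rw [hζ] at hδ
  have hqξ : ‖q ξ‖ ≤ 1 := (proj_norm_le hq ξ).trans hξ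
  have hsplit : ⟪ξ, E ξ⟫_ℂ = ⟪q ξ, E (q ξ)⟫_ℂ + (⟪ξ - q ξ, E ξ⟫_ℂ + ⟪q ξ, E (ξ - q ξ)⟫_ℂ) := by
    simp only [inner_sub_left, inner_sub_right, map_sub]
    ring
  have h1 : ‖⟪q ξ, E (q ξ)⟫_ℂ‖ ≤ ε' := by
    have : ⟪q ξ, E (q ξ)⟫_ℂ = ⟪ξ, (q * E * q) ξ⟫_ℂ := by
      simp only [mul_apply_eq_comp]
      rw [sa_inner hq.isSelfAdjoint]
    rw [this]
    calc ‖⟪ξ, (q * E * q) ξ⟫_ℂ‖ ≤ ‖ξ‖ * ‖(q * E * q) ξ‖ := norm_inner_le_norm _ _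
      _ ≤ ‖ξ‖ * (‖q * E * q‖ * ‖ξ‖) :=
          mul_le_mul_of_nonneg_left ((q * E * q).le_opNorm _) (norm_nonneg _)
      _ ≤ 1 * (‖q * E * q‖ * 1) := by
          apply mul_le_mul hξ _ (by positivity) zero_le_one
          exact mul_le_mul_of_nonneg_left hξ (norm_nonneg _)
      _ ≤ ε' := by linarith
  have h2 : ‖⟪ξ - q ξ, E ξ⟫_ℂ‖ ≤ B * δ := by
    calc ‖⟪ξ - q ξ, E ξ⟫_ℂ‖ ≤ ‖ξ - q ξ‖ * ‖E ξ‖ := norm_inner_le_norm _ _
      _ ≤ δ * (B * 1) := by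
          apply mul_le_mul hδ _ (norm_nonneg _) hδ0
          calc ‖E ξ‖ ≤ ‖E‖ * ‖ξ‖ := E.le_opNorm _
            _ ≤ B * 1 := mul_le_mul hE hξ (norm_nonneg _) hB
      _ = B * δ := by ring
  have h3 : ‖⟪q ξ, E (ξ - q ξ)⟫_ℂ‖ ≤ B * δ := by
    calc ‖⟪q ξ, E (ξ - q ξ)⟫_ℂ‖ ≤ ‖q ξ‖ * ‖E (ξ - q ξ)‖ := norm_inner_le_norm _ _
      _ ≤ 1 * (B * δ) := by
          apply mul_le_mul hqξ _ (norm_nonneg _) zero_le_one
          calc ‖E (ξ - q ξ)‖ ≤ ‖E‖ * ‖ξ - q ξ‖ := E.le_opNorm _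
            _ ≤ B * δ := mul_le_mul hE hδ (norm_nonneg _) hB
      _ = B * δ := one_mul _
  rw [hsplit]
  calc ‖⟪q ξ, E (q ξ)⟫_ℂ + (⟪ξ - q ξ, E ξ⟫_ℂ + ⟪q ξ, E (ξ - q ξ)⟫_ℂ)‖
      ≤ ‖⟪q ξ, E (q ξ)⟫_ℂ‖ + (‖⟪ξ - q ξ, E ξ⟫_ℂ‖ + ‖⟪q ξ, E (ξ - q ξ)⟫_ℂ‖) :=
        (norm_add_le _ _).trans (add_le_add_right (norm_add_le _ _) _)
    _ ≤ ε' + 2 * B * δ := by linarith

lemma norm_pinching_le {r : ℕ} {p : Fin r → H →L[ℂ] H} (hp : OrthoFam p) (x : H →L[ℂ] H) :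
    ‖pinching p x‖ ≤ r * ‖x‖ := by
  unfold pinching
  calc ‖∑ k, p k * x * p k‖ ≤ ∑ k, ‖p k * x * p k‖ := norm_sum_le _ _
    _ ≤ ∑ _k : Fin r, ‖x‖ := by
        refine Finset.sum_le_sum (fun k _ => ?_)
        have h1 := proj_opNorm_le (hp.1 k)
        calc ‖p k * x * p k‖ ≤ ‖p k * x‖ * ‖p k‖ := norm_mul_le _ _
          _ ≤ (‖p k‖ * ‖x‖) * ‖p k‖ :=
              mul_le_mul_of_nonneg_right (norm_mul_le _ _) (norm_nonneg _)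
          _ ≤ (1 * ‖x‖) * 1 := by
              apply mul_le_mul _ h1 (norm_nonneg _) (by positivity)
              exact mul_le_mul_of_nonneg_right h1 (norm_nonneg _)
          _ = ‖x‖ := by ring
    _ = r * ‖x‖ := by simp

/-- **Abstract lower bound.** -/
theorem not_soPavable (M A : Set (H →L[ℂ] H)) (ω : H) (hω : ‖ω‖ = 1)
    (hw : ∀ N : ℕ, ∃ w : Fin N → H, Orthonormal ℂ w ∧
      ∀ a ∈ A, ∀ i, ⟪w i, a (w i)⟫_ℂ = ⟪ω, a ω⟫_ℂ)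
    (ε : ℝ) (hε : 0 < ε) (r : ℕ) (hr : (r : ℝ) * ε < 1) :
    ¬ SoPavable M A (symOp ω) ε r := by
  intro hpav
  classical
  by_cases hr0 : r = 0
  · subst hr0
    obtain ⟨p, a, q, hp, -⟩ := hpav ∅ 1 one_pos
    have h1 : (∑ i : Fin 0, p i) = 1 := hp.2.2
    rw [Finset.univ_eq_empty, Finset.sum_empty] at h1
    have h2 : ω = 0 := by
      have := congrArg (fun T : H →L[ℂ] H => T ω) h1
      simpa using this.symm
    rw [h2] at hω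
    simp at hω
  have hrpos : 0 < r := Nat.pos_of_ne_zero hr0
  have hrR : (0 : ℝ) < r := Nat.cast_pos.mpr hrpos
  have hgpos : 0 < 1 / (r : ℝ) - ε := by
    rw [sub_pos, lt_div_iff₀ hrR]
    linarith
  obtain ⟨N, hN⟩ := exists_nat_gt (2 / (1 / (r : ℝ) - ε))
  have hNR : (0 : ℝ) < N := lt_trans (by positivity) hN
  have hNpos : 0 < N := by exact_mod_cast hNR
  obtain ⟨w, hwo, hwA⟩ := hw N
  have hδpos : 0 < (1 / (r : ℝ) - ε) / (8 * ((r : ℝ) + 1)) := by positivity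
  obtain ⟨p, a, q, hp, haA, -, hanorm, -, hq, hF, hmain⟩ :=
    hpav (insert ω (Finset.image w Finset.univ)) _ hδpos
  have hfam : OrthoFam p := ⟨fun k => (hp.1 k).2, hp.2.1, hp.2.2⟩
  have hx1 : ‖symOp ω‖ ≤ 1 := norm_symOp_le ω hω
  have hE : ‖pinching p (symOp ω) - a‖ ≤ (r : ℝ) + 1 := by
    calc ‖pinching p (symOp ω) - a‖ ≤ ‖pinching p (symOp ω)‖ + ‖a‖ := norm_sub_le _ _
      _ ≤ (r : ℝ) * ‖symOp ω‖ + ‖symOp ω‖ := add_le_add (norm_pinching_le hfam _) hanorm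
      _ ≤ (r : ℝ) * 1 + 1 := by
          apply add_le_add _ hx1
          exact mul_le_mul_of_nonneg_left hx1 hrR.le
      _ = (r : ℝ) + 1 := by ring
  have hqE : ‖q * (pinching p (symOp ω) - a) * q‖ ≤ ε := by
    refine hmain.trans ?_
    calc ε * ‖symOp ω‖ ≤ ε * 1 := mul_le_mul_of_nonneg_left hx1 hε.le
      _ = ε := mul_one _
  have key : ∀ ξ ∈ insert ω (Finset.image w Finset.univ), ‖ξ‖ = 1 →
      ⟪ξ, a ξ⟫_ℂ = ⟪ω, a ω⟫_ℂ →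
      ‖((2 * sfun p ω ξ - 1 : ℝ) : ℂ) - ⟪ω, a ω⟫_ℂ‖
        ≤ ε + 2 * ((r : ℝ) + 1) * ((1 / (r : ℝ) - ε) / (8 * ((r : ℝ) + 1))) := by
    intro ξ hξF hξ1 hξa
    have h := norm_inner_le_of_compress hq ξ hξ1.le _ (hF ξ hξF).le _ hE ε hqE
    rw [_root_.sub_apply, inner_sub_right, inner_pinching_symOp hfam, hξa, hξ1] at h
    simpa using h
  have k0 := key ω (Finset.mem_insert_self _ _) hω rfl
  have hsum : ∑ i, sfun p ω (w i) ≤ ∑ _i : Fin N, 1 / (N : ℝ) := by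
    refine (sum_sfun_le hfam ω hω w hwo).trans (le_of_eq ?_)
    simp only [Finset.sum_const, Finset.card_univ, Fintype.card_fin, nsmul_eq_mul]
    field_simp
  obtain ⟨i, -, hi⟩ := Finset.exists_le_of_sum_le
    (⟨⟨0, hNpos⟩, Finset.mem_univ _⟩ : (Finset.univ : Finset (Fin N)).Nonempty) hsum
  have k1 := key (w i) (Finset.mem_insert_of_mem (Finset.mem_image_of_mem w (Finset.mem_univ i)))
    (hwo.1 i) (hwA a haA i)
  have htri : ‖((2 * sfun p ω ω - 1 : ℝ) : ℂ) - ((2 * sfun p ω (w i) - 1 : ℝ) : ℂ)‖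
      ≤ 2 * (ε + 2 * ((r : ℝ) + 1) * ((1 / (r : ℝ) - ε) / (8 * ((r : ℝ) + 1)))) := by
    have : ((2 * sfun p ω ω - 1 : ℝ) : ℂ) - ((2 * sfun p ω (w i) - 1 : ℝ) : ℂ)
        = (((2 * sfun p ω ω - 1 : ℝ) : ℂ) - ⟪ω, a ω⟫_ℂ)
          - (((2 * sfun p ω (w i) - 1 : ℝ) : ℂ) - ⟪ω, a ω⟫_ℂ) := by ring
    rw [this]
    refine (norm_sub_le _ _).trans ?_
    linarith
  rw [← Complex.ofReal_sub, Complex.norm_real, Real.norm_eq_abs] at htri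
  have h5 := sfun_self_ge hfam ω hω hrpos
  have h6 := le_abs_self (2 * sfun p ω ω - 1 - (2 * sfun p ω (w i) - 1))
  have h7 : 2 * ((r : ℝ) + 1) * ((1 / (r : ℝ) - ε) / (8 * ((r : ℝ) + 1)))
      = (1 / (r : ℝ) - ε) / 4 := by
    field_simp
    ring
  have h8 : 1 / (N : ℝ) < (1 / (r : ℝ) - ε) / 2 := by
    rw [div_lt_iff₀ hNR]
    rw [div_lt_iff₀ hgpos] at hN
    linarith
  rw [h7] at htri
  linarith

end Vale.Agent.Lib.P078
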