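import Mathlib
import Vale.Agent.Lib.P078.Defs
import Vale.Agent.Lib.P078.Proj
import Vale.Agent.Lib.P078.Lower
import Vale.Agent.Lib.P078.Mult
import Vale.Agent.Lib.P078.UpperConcrete
import Vale.Agent.Lib.P078.Flat

/-!
# P078 helper: the lower bound for `L^∞(μ)` acting on `L²(μ)`, `μ` finite and diffuse

For every `ε > 0` and `r` with `r ε < 1` some symmetry `2 |ω⟩⟨ω| - 1` is not `(ε, r)` so-pavable.
Also: `L²(μ)` is infinite-dimensional.
-/

namespace Vale.Agent.Lib.P078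

open MeasureTheory
open scoped InnerProductSpace ENNReal

set_option linter.unusedSectionVars false

section abstract_lower

variable {H : Type*} [NormedAddCommGroup H] [InnerProductSpace ℂ H] [CompleteSpace H]

/-- **Abstract lower bound, one family.**  A unit vector `ω` and an orthonormal family `w` of
length `N > 2 / (1/r - ε)` on which every element of `A` has the same diagonal coefficient as on
`ω`: then `2 |ω⟩⟨ω| - 1` is not `(ε, r)` so-pavable. -/
theorem not_soPavable_of_family (M A : Set (H →L[ℂ] H)) (ω : H) (hω : ‖ω‖ = 1)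
    (ε : ℝ) (hε : 0 < ε) (r : ℕ) (hr : (r : ℝ) * ε < 1) (N : ℕ)
    (hN : 2 / (1 / (r : ℝ) - ε) < N) (w : Fin N → H) (hwo : Orthonormal ℂ w)
    (hwA : ∀ a ∈ A, ∀ i, ⟪w i, a (w i)⟫_ℂ = ⟪ω, a ω⟫_ℂ) :
    ¬ SoPavable M A (symOp ω) ε r := by
  intro hpav
  classical
  by_cases hr0 : r = 0
  · subst hr0
    obtain ⟨p, a, q, hp, -⟩ := hpav ∅ 1 one_pos
    have h1 : (∑ i : Fin 0, p i) = 1 := hp.2.2
    rw [Finset.univ_eq_empty, Finset.sum_empty] at h1
    have h2 : ω = 0 := by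
      have := congrArg (fun T : H →L[ℂ] H => T ω) h1
      simpa using this.symm
    rw [h2] at hω
    simp at hω
  have hrpos : 0 < r := Nat.pos_of_ne_zero hr0
  have hrR : (0 : ℝ) < r := Nat.cast_pos.mpr hrpos
  have hgpos : 0 < 1 / (r : ℝ) - ε := by
    rw [sub_pos, lt_div_iff₀ hrR]
    linarith
  have hNR : (0 : ℝ) < N := lt_trans (by positivity) hN
  have hNpos : 0 < N := by exact_mod_cast hNR
  have hδpos : 0 < (1 / (r : ℝ) - ε) / (8 * ((r : ℝ) + 1)) := by positivity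
  obtain ⟨p, a, q, hp, haA, -, hanorm, -, hq, hF, hmain⟩ :=
    hpav (insert ω (Finset.image w Finset.univ)) _ hδpos
  have hfam : OrthoFam p := ⟨fun k => (hp.1 k).2, hp.2.1, hp.2.2⟩
  have hx1 : ‖symOp ω‖ ≤ 1 := norm_symOp_le ω hω
  have hE : ‖pinching p (symOp ω) - a‖ ≤ (r : ℝ) + 1 := by
    calc ‖pinching p (symOp ω) - a‖ ≤ ‖pinching p (symOp ω)‖ + ‖a‖ := norm_sub_le _ _
      _ ≤ (r : ℝ) * ‖symOp ω‖ + ‖symOp ω‖ := add_le_add (norm_pinching_le hfam _) hanorm
      _ ≤ (r : ℝ) * 1 + 1 := by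
          apply add_le_add _ hx1
          exact mul_le_mul_of_nonneg_left hx1 hrR.le
      _ = (r : ℝ) + 1 := by ring
  have hqE : ‖q * (pinching p (symOp ω) - a) * q‖ ≤ ε := by
    refine hmain.trans ?_
    calc ε * ‖symOp ω‖ ≤ ε * 1 := mul_le_mul_of_nonneg_left hx1 hε.le
      _ = ε := mul_one _
  have key : ∀ ξ ∈ insert ω (Finset.image w Finset.univ), ‖ξ‖ = 1 →
      ⟪ξ, a ξ⟫_ℂ = ⟪ω, a ω⟫_ℂ →
      ‖((2 * sfun p ω ξ - 1 : ℝ) : ℂ) - ⟪ω, a ω⟫_ℂ‖
        ≤ ε + 2 * ((r : ℝ) + 1) * ((1 / (r : ℝ) - ε) / (8 * ((r : ℝ) + 1))) := by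
    intro ξ hξF hξ1 hξa
    have h := norm_inner_le_of_compress hq ξ hξ1.le _ (hF ξ hξF).le _ hE ε hqE
    rw [_root_.sub_apply, inner_sub_right, inner_pinching_symOp hfam, hξa, hξ1] at h
    simpa using h
  have k0 := key ω (Finset.mem_insert_self _ _) hω rfl
  have hsum : ∑ i, sfun p ω (w i) ≤ ∑ _i : Fin N, 1 / (N : ℝ) := by
    refine (sum_sfun_le hfam ω hω w hwo).trans (le_of_eq ?_)
    simp only [Finset.sum_const, Finset.card_univ, Fintype.card_fin, nsmul_eq_mul]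
    field_simp
  obtain ⟨i, -, hi⟩ := Finset.exists_le_of_sum_le
    (⟨⟨0, hNpos⟩, Finset.mem_univ _⟩ : (Finset.univ : Finset (Fin N)).Nonempty) hsum
  have k1 := key (w i) (Finset.mem_insert_of_mem (Finset.mem_image_of_mem w (Finset.mem_univ i)))
    (hwo.1 i) (hwA a haA i)
  have htri : ‖((2 * sfun p ω ω - 1 : ℝ) : ℂ) - ((2 * sfun p ω (w i) - 1 : ℝ) : ℂ)‖
      ≤ 2 * (ε + 2 * ((r : ℝ) + 1) * ((1 / (r : ℝ) - ε) / (8 * ((r : ℝ) + 1)))) := by
    have : ((2 * sfun p ω ω - 1 : ℝ) : ℂ) - ((2 * sfun p ω (w i) - 1 : ℝ) : ℂ)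
        = (((2 * sfun p ω ω - 1 : ℝ) : ℂ) - ⟪ω, a ω⟫_ℂ)
          - (((2 * sfun p ω (w i) - 1 : ℝ) : ℂ) - ⟪ω, a ω⟫_ℂ) := by ring
    rw [this]
    refine (norm_sub_le _ _).trans ?_
    linarith
  rw [← Complex.ofReal_sub, Complex.norm_real, Real.norm_eq_abs] at htri
  have h5 := sfun_self_ge hfam ω hω hrpos
  have h6 := le_abs_self (2 * sfun p ω ω - 1 - (2 * sfun p ω (w i) - 1))
  have h7 : 2 * ((r : ℝ) + 1) * ((1 / (r : ℝ) - ε) / (8 * ((r : ℝ) + 1)))
      = (1 / (r : ℝ) - ε) / 4 := by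
    field_simp
    ring
  have h8 : 1 / (N : ℝ) < (1 / (r : ℝ) - ε) / 2 := by
    rw [div_lt_iff₀ hNR]
    rw [div_lt_iff₀ hgpos] at hN
    linarith
  rw [h7] at htri
  linarith

end abstract_lower

universe u

variable {X : Type u} [MeasurableSpace X] {μ : Measure X} [IsFiniteMeasure μ]

/-- a finite diffuse nonzero measure has `N` pairwise disjoint sets of positive measure -/
lemma exists_disjoint_pos (hμ : HasSmallPartitions μ) (hμ0 : μ ≠ 0) (N : ℕ) :
    ∃ G : Fin N → Set X, (∀ k, MeasurableSet (G k)) ∧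
      (∀ k l, k ≠ l → Disjoint (G k) (G l)) ∧ ∀ k, 0 < μ.real (G k) := by
  classical
  have hpos : 0 < μ.real Set.univ := by
    rw [Measure.real, ENNReal.toReal_pos_iff]
    exact ⟨pos_iff_ne_zero.mpr (fun h => hμ0 (Measure.measure_univ_eq_zero.mp h)),
      measure_lt_top μ Set.univ⟩
  obtain ⟨M, I, hIm, hId, hIU, hIη⟩ := hμ (μ.real Set.univ / ((N : ℝ) + 1)) (by positivity)
  have hsum : μ.real Set.univ = ∑ k, μ.real (I k) := by
    rw [← hIU]
    exact measureReal_iUnion_fintype (fun k l hkl => hId k l hkl) hIm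
  -- the cells of positive measure
  have hsum' : μ.real Set.univ
      = ∑ k ∈ Finset.univ.filter (fun k => 0 < μ.real (I k)), μ.real (I k) := by
    rw [hsum, Finset.sum_filter]
    refine Finset.sum_congr rfl (fun k _ => ?_)
    by_cases h : 0 < μ.real (I k)
    · rw [if_pos h]
    · rw [if_neg h]
      exact le_antisymm (not_lt.mp h) measureReal_nonneg
  have hcard : (N : ℝ) + 1
      ≤ ((Finset.univ.filter (fun k => 0 < μ.real (I k))).card : ℝ) := by
    have h1 : μ.real Set.univ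
        ≤ ((Finset.univ.filter (fun k => 0 < μ.real (I k))).card : ℝ)
          * (μ.real Set.univ / ((N : ℝ) + 1)) := by
      calc μ.real Set.univ
          = ∑ k ∈ Finset.univ.filter (fun k => 0 < μ.real (I k)), μ.real (I k) := hsum'
        _ ≤ ∑ _k ∈ Finset.univ.filter (fun k => 0 < μ.real (I k)),
              μ.real Set.univ / ((N : ℝ) + 1) := Finset.sum_le_sum (fun k _ => hIη k)
        _ = _ := by rw [Finset.sum_const, nsmul_eq_mul]
    have hN1 : (0 : ℝ) < (N : ℝ) + 1 := by positivity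
    rw [← mul_div_assoc, le_div_iff₀ hN1] at h1
    have h2 : μ.real Set.univ * ((N : ℝ) + 1)
        ≤ μ.real Set.univ * ((Finset.univ.filter (fun k => 0 < μ.real (I k))).card : ℝ) := by
      linarith
    exact le_of_mul_le_mul_left h2 hpos
  have hcard' : Fintype.card (Fin N)
      ≤ Fintype.card {k : Fin M // 0 < μ.real (I k)} := by
    rw [Fintype.card_fin, Fintype.card_subtype]
    have : (N : ℝ) ≤ ((Finset.univ.filter (fun k => 0 < μ.real (I k))).card : ℝ) := by linarith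
    exact_mod_cast this
  obtain ⟨emb⟩ := Function.Embedding.nonempty_of_card_le hcard'
  refine ⟨fun k => I (emb k).1, fun k => hIm _, fun k l hkl => ?_, fun k => (emb k).2⟩
  apply hId
  intro h
  exact hkl (emb.injective (Subtype.ext h))

lemma nVec_norm_of_pos {B : Set X} (hB : MeasurableSet B) (hpos : 0 < μ.real B) :
    ‖nVec μ B‖ = 1 := by
  unfold nVec
  have hs : 0 < Real.sqrt (μ.real B) := Real.sqrt_pos.mpr hpos
  rw [norm_smul, norm_indVec hB, Complex.norm_real, Real.norm_eq_abs,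
    abs_of_nonneg (inv_nonneg.mpr hs.le)]
  field_simp

lemma indOp_nVec_self {B : Set X} (hB : MeasurableSet B) : indOp μ B (nVec μ B) = nVec μ B := by
  rw [indOp_nVec hB hB, Set.inter_self]
  rfl

lemma indOp_nVec_disjoint {B C : Set X} (hB : MeasurableSet B) (hC : MeasurableSet C)
    (h : Disjoint B C) : indOp μ B (nVec μ C) = 0 := by
  rw [indOp_nVec hB hC, Set.disjoint_iff_inter_eq_empty.mp h, indVec_empty, smul_zero]

/-- elements of the multiplication algebra commute with the indicator projections -/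
lemma multAlg_comm_indOp {a : Lp ℂ 2 μ →L[ℂ] Lp ℂ 2 μ} (ha : a ∈ multAlg μ) {B : Set X}
    (hB : MeasurableSet B) : a * indOp μ B = indOp μ B * a := by
  obtain ⟨φ, -, hact⟩ := ha
  have hact' : ActsBy a φ := hact
  exact (hact'.mul (indOp_acts hB)).ext ((indOp_acts hB).mul hact')
    (Filter.Eventually.of_forall (fun x => mul_comm _ _))

/-- normalised indicators of disjoint sets: off-diagonal coefficients of the algebra vanish -/
lemma inner_nVec_multAlg {a : Lp ℂ 2 μ →L[ℂ] Lp ℂ 2 μ} (ha : a ∈ multAlg μ) {B C : Set X}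
    (hB : MeasurableSet B) (hC : MeasurableSet C) (h : Disjoint B C) :
    ⟪nVec μ B, a (nVec μ C)⟫_ℂ = 0 := by
  have h1 : a (nVec μ C) = indOp μ C (a (nVec μ C)) := by
    conv_lhs => rw [← indOp_nVec_self (μ := μ) hC]
    rw [← mul_apply_eq_comp, multAlg_comm_indOp ha hC, mul_apply_eq_comp]
  rw [h1, ← sa_inner (indOp_isStarProjection hC).isSelfAdjoint,
    indOp_nVec_disjoint hC hB h.symm, inner_zero_left]

lemma orthonormal_nVec {N : ℕ} (G : Fin N → Set X) (hGm : ∀ k, MeasurableSet (G k))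
    (hGd : ∀ k l, k ≠ l → Disjoint (G k) (G l)) (hGp : ∀ k, 0 < μ.real (G k)) :
    Orthonormal ℂ (fun k => nVec μ (G k)) := by
  refine ⟨fun k => nVec_norm_of_pos (hGm k) (hGp k), fun k l hkl => ?_⟩
  have h1 : nVec μ (G l) = indOp μ (G l) (nVec μ (G l)) := (indOp_nVec_self (hGm l)).symm
  show ⟪nVec μ (G k), nVec μ (G l)⟫_ℂ = 0
  rw [h1, ← sa_inner (indOp_isStarProjection (hGm l)).isSelfAdjoint,
    indOp_nVec_disjoint (hGm l) (hGm k) (hGd l k (Ne.symm hkl)), inner_zero_left]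

/-- `L²` of a finite diffuse nonzero measure is infinite-dimensional -/
theorem not_finiteDimensional_Lp (hμ : HasSmallPartitions μ) (hμ0 : μ ≠ 0) :
    ¬ FiniteDimensional ℂ (Lp ℂ 2 μ) := by
  intro hfin
  obtain ⟨G, hGm, hGd, hGp⟩ := exists_disjoint_pos hμ hμ0 (Module.finrank ℂ (Lp ℂ 2 μ) + 1)
  have hli := (orthonormal_nVec G hGm hGd hGp).linearIndependent
  have := hli.fintype_card_le_finrank
  rw [Fintype.card_fin] at this
  omega

/-- **Lower bound.**  For a finite diffuse nonzero measure and `r ε < 1`, some self-adjoint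
operator on `L²(μ)` is not `(ε, r)` so-pavable over `L^∞(μ)`. -/
theorem exists_not_soPavable (hμ : HasSmallPartitions μ) (hμ0 : μ ≠ 0) (ε : ℝ) (hε : 0 < ε)
    (r : ℕ) (hr : (r : ℝ) * ε < 1) :
    ∃ x : Lp ℂ 2 μ →L[ℂ] Lp ℂ 2 μ, IsSelfAdjoint x ∧
      ¬ SoPavable Set.univ (multAlg μ) x ε r := by
  obtain ⟨N, hN⟩ := exists_nat_gt (2 / (1 / (r : ℝ) - ε))
  obtain ⟨G, hGm, hGd, hGp⟩ := exists_disjoint_pos hμ hμ0 (N + 1)
  obtain ⟨w, hwo, hwA⟩ := exists_flat_family (fun k => nVec μ (G k))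
    (orthonormal_nVec G hGm hGd hGp) (multAlg μ)
    (fun a ha j j' hjj => inner_nVec_multAlg ha (hGm j) (hGm j') (hGd j j' hjj))
  refine ⟨symOp (w 0), symOp_isSelfAdjoint _, ?_⟩
  apply not_soPavable_of_family Set.univ (multAlg μ) (w 0) (hwo.1 0) ε hε r hr (N + 1) _ w hwo
    (fun a ha i => hwA a ha i 0)
  push_cast
  linarith

end Vale.Agent.Lib.P078
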