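import Mathlib
import Vale.Agent.Lib.P078.Mult

/-!
# P078 helper: the multiplication algebra is commutative and closed under adjoints
-/

namespace Vale.Agent.Lib.P078

open MeasureTheory
open scoped InnerProductSpace ENNReal

variable {X : Type*} [MeasurableSpace X] {μ : MeasureTheory.Measure X}

theorem multAlg_comm (S T : Lp ℂ 2 μ →L[ℂ] Lp ℂ 2 μ) (hS : S ∈ multAlg μ) (hT : T ∈ multAlg μ) :
    S * T = T * S := by
  obtain ⟨φ, -, hφ⟩ := hS
  obtain ⟨ψ, -, hψ⟩ := hT
  have h1 : ActsBy S φ := hφ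
  have h2 : ActsBy T ψ := hψ
  exact (h1.mul h2).ext (h2.mul h1) (Filter.Eventually.of_forall fun x => mul_comm _ _)

theorem multAlg_star (T : Lp ℂ 2 μ →L[ℂ] Lp ℂ 2 μ) (hT : T ∈ multAlg μ) : star T ∈ multAlg μ := by
  obtain ⟨φ, hmem, hφ⟩ := hT
  have hact : ActsBy T φ := hφ
  have hmem' : MemLp (fun x => (starRingEnd ℂ) (φ x)) ⊤ μ :=
    hmem.congr_norm (Complex.continuous_conj.comp_aestronglyMeasurable hmem.1)
      (Filter.Eventually.of_forall fun x => (RCLike.norm_conj (φ x)).symm)
  have hS := mulOp_acts (μ := μ) hmem'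
  have heq : mulOp μ (fun x => (starRingEnd ℂ) (φ x)) = star T := by
    rw [ContinuousLinearMap.star_eq_adjoint, ContinuousLinearMap.eq_adjoint_iff]
    intro f g
    rw [hS.inner_left f g, hact.inner f g]
    apply integral_congr_ae
    filter_upwards with x
    rw [map_mul, Complex.conj_conj]
    ring
  rw [← heq]
  exact mulOp_mem hmem'

end Vale.Agent.Lib.P078
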