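import Mathlib
import Vale.Agent.Lib.P078.Defs
import Vale.Agent.Lib.P078.Coloring
import Vale.Agent.Lib.P078.Proj
import Vale.Agent.Lib.P078.Upper

/-!
# P078 helper: the abstract upper bound, exact form

Same setting as `exists_paving`, with one more ingredient: a projection `Q` below the span of the
vectors `v j` on which `x + t` has norm at most `‖x‖ - t`.  Then the pinching of `x`, compressed
to `Q`, is within exactly `‖x‖ / r` of an element of the algebra.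
-/

namespace Vale.Agent.Lib.P078

open scoped InnerProductSpace

set_option linter.unusedSectionVars false

variable {H : Type*} [NormedAddCommGroup H] [InnerProductSpace ℂ H] [CompleteSpace H]

section exact

variable {ι κ : Type*} [Fintype ι] [DecidableEq ι] [Fintype κ] [DecidableEq κ]
  {e : ι → H →L[ℂ] H} {v : κ → H} {J : ι → κ}

lemma norm_aOp_le_sharp (he : OrthoFam e) (x : H →L[ℂ] H) (hv1 : ∀ j, ‖v j‖ ≤ 1) (J : ι → κ)
    (r : ℕ) (hr : 0 < r) : ‖aOp e x v J r‖ ≤ (1 - 1 / (r : ℝ)) * ‖x‖ := by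
  have hr1 : (1 : ℝ) ≤ r := by exact_mod_cast hr
  have h0 : 0 ≤ 1 - 1 / (r : ℝ) := by
    have : 1 / (r : ℝ) ≤ 1 := by
      rw [div_le_one (by linarith)]
      exact hr1
    linarith
  unfold aOp
  refine he.norm_sum_smul_le _ ((1 - 1 / (r : ℝ)) * ‖x‖) (mul_nonneg h0 (norm_nonneg x))
    (fun i => ?_)
  rw [abs_mul, abs_of_nonneg h0]
  exact mul_le_mul_of_nonneg_left (abs_dcoef_le he x hv1 _) h0

/-- the decomposition behind `exists_paving`, with the deviation part kept separate -/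
lemma exists_paving_decomp (he : OrthoFam e)
    (hv : ∀ j, v j = 0 ∨ ‖v j‖ = 1) (hJ : ∀ i j, J i ≠ j → e i (v j) = 0)
    (η : ℝ) (hη0 : 0 ≤ η) (hη : ∀ i j, ‖e i (v j)‖ ^ 2 ≤ η)
    (x : H →L[ℂ] H) (hx : IsSelfAdjoint x) (r : ℕ) (hr : 0 < r) :
    ∃ c : ι → Fin r,
      spanProj v * (pinching (colourProj e c) x - aOp e x v J r) * spanProj v
        = spanProj v * devOp e c x * spanProj v
          + ((1 / (r : ℝ) : ℝ) : ℂ) • (spanProj v * x * spanProj v) ∧
      ‖spanProj v * devOp e c x * spanProj v‖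
        ≤ Real.sqrt (2 * η * (Fintype.card κ : ℝ) ^ 2 / (r : ℝ)) * ‖x‖ := by
  have : NeZero r := ⟨hr.ne'⟩
  have hv1 : ∀ j, ‖v j‖ ≤ 1 := by
    intro j
    rcases hv j with h | h
    · rw [h]; simp
    · rw [h]
  have hvo := ortho_of_supp he hJ
  obtain ⟨c, hc⟩ := exists_colouring he v x η hη0 hη hv1 r
  refine ⟨c, ?_, ?_⟩
  · have hdecomp : spanProj v * (pinching (colourProj e c) x - aOp e x v J r) * spanProj v
        = spanProj v * devOp e c x * spanProj v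
          + spanProj v * (((1 - 1 / (r : ℝ) : ℝ) : ℂ) • diagPart e x - aOp e x v J r) * spanProj v
          + ((1 / (r : ℝ) : ℝ) : ℂ) • (spanProj v * x * spanProj v) := by
      unfold devOp
      simp only [mul_sub, sub_mul, mul_smul_comm, smul_mul_assoc]
      abel
    have h2 : spanProj v * (((1 - 1 / (r : ℝ) : ℝ) : ℂ) • diagPart e x - aOp e x v J r)
        * spanProj v = 0 := by
      apply spanProj_mul_mul_eq_zero hvo hv
      intro j j'
      rw [_root_.sub_apply, _root_.smul_apply, inner_sub_right, inner_smul_right,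
        inner_aOp he hx hv hJ, sub_self]
    rw [hdecomp, h2, add_zero]
  · refine (norm_spanProj_mul_mul_le hvo hv _).trans ?_
    calc Real.sqrt (∑ j, ∑ j', ‖⟪v j, devOp e c x (v j')⟫_ℂ‖ ^ 2)
        ≤ Real.sqrt (2 * η * (Fintype.card κ : ℝ) ^ 2 / (r : ℝ) * ‖x‖ ^ 2) :=
          Real.sqrt_le_sqrt hc
      _ = Real.sqrt (2 * η * (Fintype.card κ : ℝ) ^ 2 / (r : ℝ)) * ‖x‖ := by
          rw [Real.sqrt_mul' _ (sq_nonneg _), Real.sqrt_sq (norm_nonneg x)]

/-- **Abstract upper bound, exact form.** -/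
theorem exists_paving_exact {A : Set (H →L[ℂ] H)} (hA0 : (0 : H →L[ℂ] H) ∈ A)
    (hAadd : ∀ S T, S ∈ A → T ∈ A → S + T ∈ A)
    (hAsmul : ∀ (t : ℝ) (T : H →L[ℂ] H), T ∈ A → (t : ℂ) • T ∈ A)
    (hA1 : (1 : H →L[ℂ] H) ∈ A)
    (he : OrthoFam e) (heA : ∀ i, e i ∈ A)
    (hv : ∀ j, v j = 0 ∨ ‖v j‖ = 1) (hJ : ∀ i j, J i ≠ j → e i (v j) = 0)
    (η : ℝ) (hη0 : 0 ≤ η) (hη : ∀ i j, ‖e i (v j)‖ ^ 2 ≤ η)
    (x : H →L[ℂ] H) (hx : IsSelfAdjoint x) (r : ℕ) (hr : 0 < r)
    (Q : H →L[ℂ] H) (hQ : IsStarProjection Q) (hQv : spanProj v * Q = Q)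
    (t : ℝ) (ht0 : 0 ≤ t) (htx : t ≤ ‖x‖)
    (hgap : ‖Q * (x + (t : ℂ) • (1 : H →L[ℂ] H)) * Q‖ ≤ ‖x‖ - t)
    (hηt : 2 * η * (Fintype.card κ : ℝ) ^ 2 * (r : ℝ) * ‖x‖ ^ 2 ≤ t ^ 2) :
    ∃ (p : Fin r → H →L[ℂ] H) (a : H →L[ℂ] H),
      IsPartition A p ∧ a ∈ A ∧ IsSelfAdjoint a ∧ ‖a‖ ≤ ‖x‖ ∧
      ‖Q * (pinching p x - a) * Q‖ ≤ 1 / (r : ℝ) * ‖x‖ := by
  have hrpos : (0 : ℝ) < r := Nat.cast_pos.mpr hr
  have hr1 : (1 : ℝ) ≤ r := by exact_mod_cast hr
  have hv1 : ∀ j, ‖v j‖ ≤ 1 := by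
    intro j
    rcases hv j with h | h
    · rw [h]; simp
    · rw [h]
  have hvo := ortho_of_supp he hJ
  have hqB : IsStarProjection (spanProj v) := spanProj_isStarProjection hvo hv
  obtain ⟨c, hdec, hdev⟩ := exists_paving_decomp (J := J) he hv hJ η hη0 hη x hx r hr
  -- `Q` is below the span projection on both sides
  have hQv' : Q * spanProj v = Q := by
    have h1 := congrArg star hQv
    rw [star_mul, hQ.isSelfAdjoint.star_eq, hqB.isSelfAdjoint.star_eq] at h1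
    exact h1
  have hQQ : Q * Q = Q := hQ.isIdempotentElem
  have hQ1 : ‖Q‖ ≤ 1 := proj_opNorm_le hQ
  have haOpA : aOp e x v J r ∈ A := by
    unfold aOp
    exact Finset.sum_induction _ (fun T => T ∈ A) hAadd hA0 (fun i _ => hAsmul _ _ (heA i))
  refine ⟨colourProj e c, aOp e x v J r + ((-(t / (r : ℝ)) : ℝ) : ℂ) • (1 : H →L[ℂ] H),
    ?_, ?_, ?_, ?_, ?_⟩
  · have hfam := he.colour c
    exact ⟨fun k => ⟨colourProj_mem hA0 hAadd heA c k, hfam.1 k⟩, hfam.2.1, hfam.2.2⟩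
  · exact hAadd _ _ haOpA (hAsmul _ _ hA1)
  · refine (aOp_isSelfAdjoint he x v J r).add ?_
    exact IsSelfAdjoint.smul (isSelfAdjoint_iff.mpr (Complex.conj_ofReal _)) (IsSelfAdjoint.one _)
  · have h1 := norm_aOp_le_sharp he x hv1 J r hr
    have h2 : ‖((-(t / (r : ℝ)) : ℝ) : ℂ) • (1 : H →L[ℂ] H)‖ ≤ t / (r : ℝ) := by
      rw [norm_smul, Complex.norm_real, Real.norm_eq_abs, abs_neg,
        abs_of_nonneg (div_nonneg ht0 hrpos.le)]
      calc t / (r : ℝ) * ‖(1 : H →L[ℂ] H)‖ ≤ t / (r : ℝ) * 1 :=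
            mul_le_mul_of_nonneg_left ContinuousLinearMap.norm_id_le (div_nonneg ht0 hrpos.le)
        _ = t / (r : ℝ) := mul_one _
    have h3 : t / (r : ℝ) ≤ ‖x‖ / (r : ℝ) := div_le_div_of_nonneg_right htx hrpos.le
    calc ‖aOp e x v J r + ((-(t / (r : ℝ)) : ℝ) : ℂ) • (1 : H →L[ℂ] H)‖
        ≤ ‖aOp e x v J r‖ + ‖((-(t / (r : ℝ)) : ℝ) : ℂ) • (1 : H →L[ℂ] H)‖ := norm_add_le _ _
      _ ≤ (1 - 1 / (r : ℝ)) * ‖x‖ + ‖x‖ / (r : ℝ) := by linarith
      _ = ‖x‖ := by ring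
  · -- the algebraic identity
    have hid : Q * (pinching (colourProj e c) x
          - (aOp e x v J r + ((-(t / (r : ℝ)) : ℝ) : ℂ) • (1 : H →L[ℂ] H))) * Q
        = Q * (spanProj v * devOp e c x * spanProj v) * Q
          + ((1 / (r : ℝ) : ℝ) : ℂ) • (Q * (x + (t : ℂ) • (1 : H →L[ℂ] H)) * Q) := by
      have h1 : Q * (pinching (colourProj e c) x - aOp e x v J r) * Q
          = Q * (spanProj v * (pinching (colourProj e c) x - aOp e x v J r) * spanProj v) * Q := by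
        calc Q * (pinching (colourProj e c) x - aOp e x v J r) * Q
            = (Q * spanProj v) * (pinching (colourProj e c) x - aOp e x v J r)
                * (spanProj v * Q) := by rw [hQv, hQv']
          _ = Q * (spanProj v * (pinching (colourProj e c) x - aOp e x v J r) * spanProj v)
                * Q := by simp only [mul_assoc]
      have h2 : Q * (spanProj v * x * spanProj v) * Q = Q * x * Q := by
        calc Q * (spanProj v * x * spanProj v) * Q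
            = (Q * spanProj v) * x * (spanProj v * Q) := by simp only [mul_assoc]
          _ = Q * x * Q := by rw [hQv, hQv']
      have h3 : Q * (pinching (colourProj e c) x
            - (aOp e x v J r + ((-(t / (r : ℝ)) : ℝ) : ℂ) • (1 : H →L[ℂ] H))) * Q
          = Q * (pinching (colourProj e c) x - aOp e x v J r) * Q
            + ((t / (r : ℝ) : ℝ) : ℂ) • Q := by
        have h4 : pinching (colourProj e c) x
              - (aOp e x v J r + ((-(t / (r : ℝ)) : ℝ) : ℂ) • (1 : H →L[ℂ] H))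
            = (pinching (colourProj e c) x - aOp e x v J r)
              + ((t / (r : ℝ) : ℝ) : ℂ) • (1 : H →L[ℂ] H) := by
          push_cast
          rw [neg_smul]
          abel
        rw [h4, mul_add, add_mul, mul_smul_comm, smul_mul_assoc, mul_one, hQQ]
      have h5 : ((1 / (r : ℝ) : ℝ) : ℂ) • (Q * (x + (t : ℂ) • (1 : H →L[ℂ] H)) * Q)
          = ((1 / (r : ℝ) : ℝ) : ℂ) • (Q * x * Q) + ((t / (r : ℝ) : ℝ) : ℂ) • Q := by
        rw [mul_add, add_mul, mul_smul_comm, smul_mul_assoc, mul_one, hQQ, smul_add, smul_smul]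
        congr 2
        push_cast
        field_simp
      rw [h3, h1, hdec, mul_add, add_mul, mul_smul_comm, smul_mul_assoc, h2, h5]
      abel
    rw [hid]
    have hn1 : ‖Q * (spanProj v * devOp e c x * spanProj v) * Q‖
        ≤ Real.sqrt (2 * η * (Fintype.card κ : ℝ) ^ 2 / (r : ℝ)) * ‖x‖ := by
      calc ‖Q * (spanProj v * devOp e c x * spanProj v) * Q‖
          ≤ ‖Q * (spanProj v * devOp e c x * spanProj v)‖ * ‖Q‖ := norm_mul_le _ _
        _ ≤ (‖Q‖ * ‖spanProj v * devOp e c x * spanProj v‖) * ‖Q‖ :=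
            mul_le_mul_of_nonneg_right (norm_mul_le _ _) (norm_nonneg _)
        _ ≤ (1 * ‖spanProj v * devOp e c x * spanProj v‖) * 1 := by
            apply mul_le_mul _ hQ1 (norm_nonneg _) (by positivity)
            exact mul_le_mul_of_nonneg_right hQ1 (norm_nonneg _)
        _ = ‖spanProj v * devOp e c x * spanProj v‖ := by ring
        _ ≤ _ := hdev
    have hn2 : ‖((1 / (r : ℝ) : ℝ) : ℂ) • (Q * (x + (t : ℂ) • (1 : H →L[ℂ] H)) * Q)‖
        ≤ 1 / (r : ℝ) * (‖x‖ - t) := by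
      rw [norm_smul, Complex.norm_real, Real.norm_eq_abs, abs_of_nonneg (by positivity)]
      exact mul_le_mul_of_nonneg_left hgap (by positivity)
    -- the deviation is at most `t / r`
    have hn3 : Real.sqrt (2 * η * (Fintype.card κ : ℝ) ^ 2 / (r : ℝ)) * ‖x‖ ≤ t / (r : ℝ) := by
      rw [le_div_iff₀ hrpos]
      have h6 : Real.sqrt (2 * η * (Fintype.card κ : ℝ) ^ 2 / (r : ℝ)) * ‖x‖ * (r : ℝ)
          = Real.sqrt (2 * η * (Fintype.card κ : ℝ) ^ 2 * (r : ℝ) * ‖x‖ ^ 2) := by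
        have h7 : 2 * η * (Fintype.card κ : ℝ) ^ 2 * (r : ℝ) * ‖x‖ ^ 2
            = (2 * η * (Fintype.card κ : ℝ) ^ 2 / (r : ℝ)) * (‖x‖ * (r : ℝ)) ^ 2 := by
          field_simp
        rw [h7, Real.sqrt_mul' _ (sq_nonneg _), Real.sqrt_sq (by positivity)]
        ring
      rw [h6]
      calc Real.sqrt (2 * η * (Fintype.card κ : ℝ) ^ 2 * (r : ℝ) * ‖x‖ ^ 2)
          ≤ Real.sqrt (t ^ 2) := Real.sqrt_le_sqrt hηt
        _ = t := Real.sqrt_sq ht0
    calc ‖Q * (spanProj v * devOp e c x * spanProj v) * Q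
          + ((1 / (r : ℝ) : ℝ) : ℂ) • (Q * (x + (t : ℂ) • (1 : H →L[ℂ] H)) * Q)‖
        ≤ ‖Q * (spanProj v * devOp e c x * spanProj v) * Q‖
          + ‖((1 / (r : ℝ) : ℝ) : ℂ) • (Q * (x + (t : ℂ) • (1 : H →L[ℂ] H)) * Q)‖ :=
          norm_add_le _ _
      _ ≤ t / (r : ℝ) + 1 / (r : ℝ) * (‖x‖ - t) := by linarith
      _ = 1 / (r : ℝ) * ‖x‖ := by ring

end exact

end Vale.Agent.Lib.P078
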