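import Mathlib

/-!
# P078 helper: a strict compression bound on a finite-dimensional subspace

If a finite-dimensional subspace `V` contains no eigenvector of the self-adjoint operator
`x ≠ 0` for the eigenvalue `‖x‖`, then for some `t > 0` the compression of `x + t` to `V` has norm
at most `‖x‖ - t`.
-/

namespace Vale.Agent.Lib.P078

open scoped InnerProductSpace

set_option linter.unusedSectionVars false

variable {H : Type*} [NormedAddCommGroup H] [InnerProductSpace ℂ H] [CompleteSpace H]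

/-- the quadratic form of `x` on `V` stays strictly below `‖x‖` -/
lemma exists_form_bound (x : H →L[ℂ] H) (hx0 : x ≠ 0)
    (V : Submodule ℂ H) [FiniteDimensional ℂ V]
    (hV : ∀ u ∈ V, x u = (‖x‖ : ℂ) • u → u = 0) :
    ∃ m : ℝ, m < ‖x‖ ∧ -‖x‖ ≤ m ∧ ∀ u ∈ V, (⟪u, x u⟫_ℂ).re ≤ m * ‖u‖ ^ 2 := by
  have hxpos : 0 < ‖x‖ := norm_pos_iff.mpr hx0
  have hbound : ∀ u : H, |(⟪u, x u⟫_ℂ).re| ≤ ‖x‖ * ‖u‖ ^ 2 := by
    intro u
    calc |(⟪u, x u⟫_ℂ).re| ≤ ‖⟪u, x u⟫_ℂ‖ := Complex.abs_re_le_norm _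
      _ ≤ ‖u‖ * ‖x u‖ := norm_inner_le_norm _ _
      _ ≤ ‖u‖ * (‖x‖ * ‖u‖) := mul_le_mul_of_nonneg_left (x.le_opNorm u) (norm_nonneg _)
      _ = ‖x‖ * ‖u‖ ^ 2 := by ring
  by_cases hne : (Metric.sphere (0 : V) 1).Nonempty
  · have hcont : ContinuousOn (fun u : V => (⟪(u : H), x (u : H)⟫_ℂ).re)
        (Metric.sphere (0 : V) 1) := by
      apply Continuous.continuousOn
      fun_prop
    obtain ⟨u₀, hu₀, hmax⟩ := (isCompact_sphere (0 : V) 1).exists_isMaxOn hne hcont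
    have hu₀n : ‖(u₀ : H)‖ = 1 := by
      have : ‖u₀‖ = 1 := by simpa using hu₀
      simpa using this
    have hle : (⟪(u₀ : H), x (u₀ : H)⟫_ℂ).re ≤ ‖x‖ := by
      have := (abs_le.mp (hbound (u₀ : H))).2
      rw [hu₀n] at this
      simpa using this
    have hge : -‖x‖ ≤ (⟪(u₀ : H), x (u₀ : H)⟫_ℂ).re := by
      have := (abs_le.mp (hbound (u₀ : H))).1
      rw [hu₀n] at this
      simpa using this
    refine ⟨(⟪(u₀ : H), x (u₀ : H)⟫_ℂ).re, lt_of_le_of_ne hle ?_, hge, ?_⟩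
    · intro heq
      -- equality forces an eigenvector
      have h1 : ‖x (u₀ : H) - (‖x‖ : ℂ) • (u₀ : H)‖ ^ 2 ≤ 0 := by
        rw [norm_sub_sq (𝕜 := ℂ), inner_smul_right, norm_smul, Complex.norm_real,
          Real.norm_eq_abs, abs_of_nonneg hxpos.le, hu₀n]
        have h2 : (RCLike.re ((‖x‖ : ℂ) * ⟪x (u₀ : H), (u₀ : H)⟫_ℂ)) = ‖x‖ * ‖x‖ := by
          have h3 : (⟪x (u₀ : H), (u₀ : H)⟫_ℂ).re = ‖x‖ := by
            rw [← inner_conj_symm, Complex.conj_re]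
            exact heq
          simp [h3]
        rw [h2]
        have h4 : ‖x (u₀ : H)‖ ≤ ‖x‖ := by
          have := x.le_opNorm (u₀ : H)
          rw [hu₀n, mul_one] at this
          exact this
        nlinarith [norm_nonneg (x (u₀ : H))]
      have h5 : x (u₀ : H) - (‖x‖ : ℂ) • (u₀ : H) = 0 := by
        have : ‖x (u₀ : H) - (‖x‖ : ℂ) • (u₀ : H)‖ = 0 := by
          nlinarith [norm_nonneg (x (u₀ : H) - (‖x‖ : ℂ) • (u₀ : H))]
        exact norm_eq_zero.mp this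
      have h6 := hV (u₀ : H) u₀.2 (sub_eq_zero.mp h5)
      rw [h6, norm_zero] at hu₀n
      exact zero_ne_one hu₀n
    · intro u hu
      by_cases hu0 : u = 0
      · subst hu0
        simp
      have hun : 0 < ‖u‖ := norm_pos_iff.mpr hu0
      have hmem : (⟨((‖u‖⁻¹ : ℝ) : ℂ) • u, V.smul_mem _ hu⟩ : V) ∈ Metric.sphere (0 : V) 1 := by
        rw [mem_sphere_zero_iff_norm]
        show ‖((‖u‖⁻¹ : ℝ) : ℂ) • u‖ = 1
        rw [norm_smul, Complex.norm_real, Real.norm_eq_abs, abs_of_nonneg (inv_nonneg.mpr hun.le),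
          inv_mul_cancel₀ hun.ne']
      have h7 : (⟪((‖u‖⁻¹ : ℝ) : ℂ) • u, x (((‖u‖⁻¹ : ℝ) : ℂ) • u)⟫_ℂ).re
          ≤ (⟪(u₀ : H), x (u₀ : H)⟫_ℂ).re := hmax hmem
      simp only [map_smul, inner_smul_left, inner_smul_right, Complex.conj_ofReal] at h7
      have h8 : (((‖u‖⁻¹ : ℝ) : ℂ) * (((‖u‖⁻¹ : ℝ) : ℂ) * ⟪u, x u⟫_ℂ)).re
          = ‖u‖⁻¹ ^ 2 * (⟪u, x u⟫_ℂ).re := by
        rw [← mul_assoc, ← Complex.ofReal_mul, Complex.re_ofReal_mul]
        ring
      rw [h8] at h7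
      have h9 : (⟪u, x u⟫_ℂ).re = ‖u‖ ^ 2 * (‖u‖⁻¹ ^ 2 * (⟪u, x u⟫_ℂ).re) := by
        field_simp
      rw [h9, mul_comm ((⟪(u₀ : H), x (u₀ : H)⟫_ℂ).re)]
      exact mul_le_mul_of_nonneg_left h7 (sq_nonneg _)
  · refine ⟨0, hxpos, by linarith, fun u hu => ?_⟩
    have hu0 : u = 0 := by
      by_contra hu0
      apply hne
      have hun : 0 < ‖u‖ := norm_pos_iff.mpr hu0
      refine ⟨⟨((‖u‖⁻¹ : ℝ) : ℂ) • u, V.smul_mem _ hu⟩, ?_⟩
      rw [mem_sphere_zero_iff_norm]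
      show ‖((‖u‖⁻¹ : ℝ) : ℂ) • u‖ = 1
      rw [norm_smul, Complex.norm_real, Real.norm_eq_abs, abs_of_nonneg (inv_nonneg.mpr hun.le),
        inv_mul_cancel₀ hun.ne']
    subst hu0
    simp

/-- **Strict compression bound.** -/
theorem exists_gap (x : H →L[ℂ] H) (hx : IsSelfAdjoint x) (hx0 : x ≠ 0)
    (V : Submodule ℂ H) [FiniteDimensional ℂ V]
    (hV : ∀ u ∈ V, x u = (‖x‖ : ℂ) • u → u = 0) :
    ∃ t : ℝ, 0 < t ∧ t ≤ ‖x‖ ∧
      ‖V.starProjection * (x + (t : ℂ) • (1 : H →L[ℂ] H)) * V.starProjection‖ ≤ ‖x‖ - t := by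
  obtain ⟨m, hm1, hm2, hm⟩ := exists_form_bound x hx0 V hV
  have hxpos : 0 < ‖x‖ := norm_pos_iff.mpr hx0
  refine ⟨(‖x‖ - m) / 2, by linarith, by linarith, ?_⟩
  have hP : IsStarProjection V.starProjection := isStarProjection_starProjection
  have hTsa : IsSelfAdjoint
      (V.starProjection * (x + (((‖x‖ - m) / 2 : ℝ) : ℂ) • (1 : H →L[ℂ] H)) * V.starProjection) := by
    have h1 : IsSelfAdjoint (x + (((‖x‖ - m) / 2 : ℝ) : ℂ) • (1 : H →L[ℂ] H)) :=
      hx.add (IsSelfAdjoint.smul (isSelfAdjoint_iff.mpr (Complex.conj_ofReal _))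
        (IsSelfAdjoint.one _))
    rw [isSelfAdjoint_iff, star_mul, star_mul, hP.isSelfAdjoint.star_eq, h1.star_eq, mul_assoc]
  have hsym := (ContinuousLinearMap.isSelfAdjoint_iff_isSymmetric.mp hTsa)
  rw [ContinuousLinearMap.norm_eq_iSup_rayleighQuotient _ hsym]
  apply ciSup_le
  intro w
  -- the quadratic form at `w`
  have hz : V.starProjection w ∈ V := Submodule.starProjection_apply_mem V w
  have hzn : ‖V.starProjection w‖ ≤ ‖w‖ := by
    have := (V.starProjection).le_opNorm w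
    have h1 : ‖V.starProjection‖ ≤ 1 := Submodule.starProjection_norm_le V
    calc ‖V.starProjection w‖ ≤ ‖V.starProjection‖ * ‖w‖ := this
      _ ≤ 1 * ‖w‖ := mul_le_mul_of_nonneg_right h1 (norm_nonneg _)
      _ = ‖w‖ := one_mul _
  have hform : (⟪(V.starProjection * (x + (((‖x‖ - m) / 2 : ℝ) : ℂ) • (1 : H →L[ℂ] H))
        * V.starProjection) w, w⟫_ℂ).re
      = (⟪V.starProjection w, x (V.starProjection w)⟫_ℂ).re
        + (‖x‖ - m) / 2 * ‖V.starProjection w‖ ^ 2 := by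
    have h1 : ⟪(V.starProjection * (x + (((‖x‖ - m) / 2 : ℝ) : ℂ) • (1 : H →L[ℂ] H))
          * V.starProjection) w, w⟫_ℂ
        = ⟪(x + (((‖x‖ - m) / 2 : ℝ) : ℂ) • (1 : H →L[ℂ] H)) (V.starProjection w),
            V.starProjection w⟫_ℂ := by
      simp only [mul_apply_eq_comp]
      exact Submodule.inner_starProjection_left_eq_right V _ _
    rw [h1, _root_.add_apply, _root_.smul_apply,
      one_apply_eq_self, inner_add_left, inner_smul_left, Complex.conj_ofReal,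
      inner_self_eq_norm_sq_to_K, Complex.add_re, ← inner_conj_symm, Complex.conj_re]
    congr 1
    have h2 : ((‖V.starProjection w‖ : ℝ) : ℂ) ^ 2 = ((‖V.starProjection w‖ ^ 2 : ℝ) : ℂ) := by
      push_cast
      rfl
    simp only [RCLike.ofReal_eq_complex_ofReal]
    rw [h2, ← Complex.ofReal_mul, Complex.ofReal_re]
  have hup := hm _ hz
  have hlow : -(‖x‖ * ‖V.starProjection w‖ ^ 2)
      ≤ (⟪V.starProjection w, x (V.starProjection w)⟫_ℂ).re := by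
    have h1 : |(⟪V.starProjection w, x (V.starProjection w)⟫_ℂ).re|
        ≤ ‖x‖ * ‖V.starProjection w‖ ^ 2 := by
      calc |(⟪V.starProjection w, x (V.starProjection w)⟫_ℂ).re|
          ≤ ‖⟪V.starProjection w, x (V.starProjection w)⟫_ℂ‖ := Complex.abs_re_le_norm _
        _ ≤ ‖V.starProjection w‖ * ‖x (V.starProjection w)‖ := norm_inner_le_norm _ _
        _ ≤ ‖V.starProjection w‖ * (‖x‖ * ‖V.starProjection w‖) :=
            mul_le_mul_of_nonneg_left (x.le_opNorm _) (norm_nonneg _)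
        _ = ‖x‖ * ‖V.starProjection w‖ ^ 2 := by ring
    exact (abs_le.mp h1).1
  have hz2 : ‖V.starProjection w‖ ^ 2 ≤ ‖w‖ ^ 2 := pow_le_pow_left₀ (norm_nonneg _) hzn 2
  have hgap0 : 0 ≤ ‖x‖ - (‖x‖ - m) / 2 := by linarith
  have habs : |(⟪(V.starProjection * (x + (((‖x‖ - m) / 2 : ℝ) : ℂ) • (1 : H →L[ℂ] H))
        * V.starProjection) w, w⟫_ℂ).re| ≤ (‖x‖ - (‖x‖ - m) / 2) * ‖w‖ ^ 2 := by
    rw [hform, abs_le]
    have hz0 : 0 ≤ ‖V.starProjection w‖ ^ 2 := sq_nonneg _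
    constructor
    · nlinarith [mul_le_mul_of_nonneg_left hz2 hgap0]
    · nlinarith [mul_le_mul_of_nonneg_left hz2 hgap0]
  show |ContinuousLinearMap.rayleighQuotient _ w| ≤ ‖x‖ - (‖x‖ - m) / 2
  unfold ContinuousLinearMap.rayleighQuotient ContinuousLinearMap.reApplyInnerSelf
  by_cases hw : w = 0
  · subst hw
    simpa using hgap0
  have hwpos : 0 < ‖w‖ ^ 2 := by positivity
  rw [abs_div, abs_of_pos hwpos, div_le_iff₀ hwpos]
  exact habs

end Vale.Agent.Lib.P078
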