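import Mathlib

/-!
# P078 helper: generic position with respect to an operator of infinite rank

* `exists_generic`: if `y` has infinite rank on the subspace `S`, finitely many vectors of `S` can
  be moved inside `S` by less than `δ` so that their images under `y` are linearly independent.
* `infinite_rank_dichotomy`: on an infinite-dimensional subspace, one of `‖x‖ - x`, `‖x‖ + x` has
  infinite rank (for `x ≠ 0`).
-/

namespace Vale.Agent.Lib.P078

open scoped InnerProductSpace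

set_option linter.unusedSectionVars false

variable {H : Type*} [NormedAddCommGroup H] [InnerProductSpace ℂ H] [CompleteSpace H]

/-- **Generic position.** -/
theorem exists_generic (S : Submodule ℂ H) (y : H →L[ℂ] H)
    (hy : ¬ FiniteDimensional ℂ (S.map (y : H →ₗ[ℂ] H)))
    (m : ℕ) (ψ : Fin m → H) (hψ : ∀ l, ψ l ∈ S) (δ : ℝ) (hδ : 0 < δ) :
    ∃ φ : Fin m → H, (∀ l, φ l ∈ S) ∧ (∀ l, ‖φ l - ψ l‖ < δ) ∧
      LinearIndependent ℂ (fun l => y (φ l)) := by
  induction m with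
  | zero => exact ⟨ψ, hψ, fun l => l.elim0, linearIndependent_empty_type⟩
  | succ m ih =>
    obtain ⟨φ', hφ'S, hφ'ψ, hli⟩ := ih (Fin.tail ψ) (fun l => hψ l.succ)
    have hWfin : FiniteDimensional ℂ (Submodule.span ℂ (Set.range (fun l => y (φ' l)))) :=
      FiniteDimensional.span_of_finite ℂ (Set.finite_range _)
    have hex : ∃ ζ ∈ S, y ζ ∉ Submodule.span ℂ (Set.range (fun l => y (φ' l))) := by
      by_contra hcon
      push Not at hcon
      apply hy
      have hle : S.map (y : H →ₗ[ℂ] H) ≤ Submodule.span ℂ (Set.range (fun l => y (φ' l))) := by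
        rintro _ ⟨ζ, hζ, rfl⟩
        exact hcon ζ hζ
      exact Submodule.finiteDimensional_of_le hle
    obtain ⟨ζ, hζS, hζW⟩ := hex
    have hφ0 : ∃ φ0 ∈ S, ‖φ0 - ψ 0‖ < δ ∧
        y φ0 ∉ Submodule.span ℂ (Set.range (fun l => y (φ' l))) := by
      by_cases h0 : y (ψ 0) ∈ Submodule.span ℂ (Set.range (fun l => y (φ' l)))
      · have hτpos : (0 : ℝ) < δ / (2 * (‖ζ‖ + 1)) := by positivity
        refine ⟨ψ 0 + ((δ / (2 * (‖ζ‖ + 1)) : ℝ) : ℂ) • ζ,
          S.add_mem (hψ 0) (S.smul_mem _ hζS), ?_, ?_⟩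
        · rw [add_sub_cancel_left, norm_smul, Complex.norm_real, Real.norm_eq_abs,
            abs_of_pos hτpos]
          have h1 : δ / (2 * (‖ζ‖ + 1)) * ‖ζ‖ = δ * (‖ζ‖ / (2 * (‖ζ‖ + 1))) := by ring
          rw [h1]
          have h2 : ‖ζ‖ / (2 * (‖ζ‖ + 1)) < 1 := by
            rw [div_lt_one (by positivity)]
            linarith [norm_nonneg ζ]
          calc δ * (‖ζ‖ / (2 * (‖ζ‖ + 1))) < δ * 1 := mul_lt_mul_of_pos_left h2 hδ
            _ = δ := mul_one δ
        · intro hmem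
          rw [map_add, map_smul] at hmem
          have h1 : ((δ / (2 * (‖ζ‖ + 1)) : ℝ) : ℂ) • y ζ
              ∈ Submodule.span ℂ (Set.range (fun l => y (φ' l))) := by
            have := Submodule.sub_mem _ hmem h0
            simpa using this
          have hτ : ((δ / (2 * (‖ζ‖ + 1)) : ℝ) : ℂ) ≠ 0 := by
            exact_mod_cast hτpos.ne'
          exact hζW ((Submodule.smul_mem_iff _ hτ).mp h1)
      · exact ⟨ψ 0, hψ 0, by simpa using hδ, h0⟩
    obtain ⟨φ0, hφ0S, hφ0ψ, hφ0W⟩ := hφ0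
    refine ⟨Fin.cons φ0 φ', ?_, ?_, ?_⟩
    · intro l
      refine Fin.cases ?_ (fun i => ?_) l
      · simpa using hφ0S
      · simpa using hφ'S i
    · intro l
      refine Fin.cases ?_ (fun i => ?_) l
      · simpa using hφ0ψ
      · simpa [Fin.tail] using hφ'ψ i
    · have hcons : (fun l => y ((Fin.cons φ0 φ' : Fin (m + 1) → H) l))
          = Fin.cons (y φ0) (fun l => y (φ' l)) := by
        funext l
        refine Fin.cases ?_ (fun i => ?_) l
        · simp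
        · simp
      rw [hcons, linearIndependent_finCons]
      exact ⟨hli, hφ0W⟩

/-- **Rank dichotomy.** -/
theorem infinite_rank_dichotomy (S : Submodule ℂ H) (hS : ¬ FiniteDimensional ℂ S)
    (x : H →L[ℂ] H) (hx0 : x ≠ 0) :
    ¬ FiniteDimensional ℂ
        (S.map (((‖x‖ : ℂ) • (1 : H →L[ℂ] H) - x : H →L[ℂ] H) : H →ₗ[ℂ] H)) ∨
      ¬ FiniteDimensional ℂ
        (S.map (((‖x‖ : ℂ) • (1 : H →L[ℂ] H) + x : H →L[ℂ] H) : H →ₗ[ℂ] H)) := by
  by_contra hcon
  push Not at hcon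
  obtain ⟨h1, h2⟩ := hcon
  apply hS
  have hxpos : 0 < ‖x‖ := norm_pos_iff.mpr hx0
  have hle : S ≤ S.map (((‖x‖ : ℂ) • (1 : H →L[ℂ] H) - x : H →L[ℂ] H) : H →ₗ[ℂ] H)
      ⊔ S.map (((‖x‖ : ℂ) • (1 : H →L[ℂ] H) + x : H →L[ℂ] H) : H →ₗ[ℂ] H) := by
    intro u hu
    have ha : ((‖x‖ : ℂ) • (1 : H →L[ℂ] H) - x) u
        ∈ S.map (((‖x‖ : ℂ) • (1 : H →L[ℂ] H) - x : H →L[ℂ] H) : H →ₗ[ℂ] H) :=
      ⟨u, hu, rfl⟩
    have hb : ((‖x‖ : ℂ) • (1 : H →L[ℂ] H) + x) u
        ∈ S.map (((‖x‖ : ℂ) • (1 : H →L[ℂ] H) + x : H →L[ℂ] H) : H →ₗ[ℂ] H) :=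
      ⟨u, hu, rfl⟩
    have hsum := Submodule.add_mem_sup ha hb
    have h3 : ((‖x‖ : ℂ) • (1 : H →L[ℂ] H) - x) u + ((‖x‖ : ℂ) • (1 : H →L[ℂ] H) + x) u
        = ((2 * ‖x‖ : ℝ) : ℂ) • u := by
      simp only [_root_.sub_apply, _root_.add_apply, _root_.smul_apply, one_apply_eq_self]
      push_cast
      rw [mul_smul, two_smul]
      abel
    rw [h3] at hsum
    have h4 : ((2 * ‖x‖ : ℝ) : ℂ) ≠ 0 := by
      exact_mod_cast (by positivity : (0 : ℝ) < 2 * ‖x‖).ne'
    exact (Submodule.smul_mem_iff _ h4).mp hsum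
  exact Submodule.finiteDimensional_of_le hle

end Vale.Agent.Lib.P078
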