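import Mathlib
import Vale.Agent.Lib.P078.Defs
import Vale.Agent.Lib.P078.Proj
import Vale.Agent.Lib.P078.Upper
import Vale.Agent.Lib.P078.Mult
import Vale.Agent.Lib.P078.UpperConcrete
import Vale.Agent.Lib.P078.Exact
import Vale.Agent.Lib.P078.Generic
import Vale.Agent.Lib.P078.Gap

/-!
# P078 helper: the exact upper bound for `L^∞(μ)` acting on `L²(μ)`

For a finite diffuse measure `μ` with `L²(μ)` infinite-dimensional, every self-adjoint operator
on `L²(μ)` is `(1/r, r)` so-pavable over `L^∞(μ)`, for every `r ≥ 1`.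
-/

namespace Vale.Agent.Lib.P078

open MeasureTheory
open scoped InnerProductSpace ENNReal

set_option linter.unusedSectionVars false

section abstract_small

variable {H : Type*} [NormedAddCommGroup H] [InnerProductSpace ℂ H] [CompleteSpace H]

/-- the zero operator is so-pavable with any positive number of pieces -/
lemma soPavable_zero (M A : Set (H →L[ℂ] H)) (hA0 : (0 : H →L[ℂ] H) ∈ A)
    (hA1 : (1 : H →L[ℂ] H) ∈ A) (hM1 : (1 : H →L[ℂ] H) ∈ M) (ε : ℝ) (r : ℕ) (hr : 0 < r) :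
    SoPavable M A (0 : H →L[ℂ] H) ε r := by
  classical
  intro F δ hδ
  refine ⟨fun i => if i = ⟨0, hr⟩ then 1 else 0, 0, 1, ⟨?_, ?_, ?_⟩, hA0, IsSelfAdjoint.zero _,
    le_refl _, hM1, IsStarProjection.one _, ?_, ?_⟩
  · intro i
    by_cases h : i = ⟨0, hr⟩
    · simp only [h, if_true]
      exact ⟨hA1, IsStarProjection.one _⟩
    · simp only [h, if_false]
      exact ⟨hA0, IsStarProjection.zero _⟩
  · intro i j hij
    by_cases h : i = ⟨0, hr⟩
    · have hj : ¬ j = ⟨0, hr⟩ := fun hj => hij (h.trans hj.symm)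
      simp [hj]
    · simp [h]
  · simp
  · intro ξ _
    simpa using hδ
  · simp [pinching]

/-- so-pavability of `-x` gives so-pavability of `x` -/
lemma soPavable_neg (M A : Set (H →L[ℂ] H)) (hAneg : ∀ a ∈ A, -a ∈ A) (x : H →L[ℂ] H) (ε : ℝ)
    (r : ℕ) (h : SoPavable M A (-x) ε r) : SoPavable M A x ε r := by
  intro F δ hδ
  obtain ⟨p, a, q, hp, haA, hasa, hanorm, hqM, hq, hF, hmain⟩ := h F δ hδ
  refine ⟨p, -a, q, hp, hAneg a haA, hasa.neg, ?_, hqM, hq, hF, ?_⟩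
  · rw [norm_neg]
    rw [norm_neg] at hanorm
    exact hanorm
  · have h1 : pinching p x - -a = -(pinching p (-x) - a) := by
      unfold pinching
      simp only [mul_neg, neg_mul, Finset.sum_neg_distrib]
      abel
    rw [h1, mul_neg, neg_mul, norm_neg]
    rw [norm_neg] at hmain
    exact hmain

end abstract_small

universe u

variable {X : Type u} [MeasurableSpace X] {μ : Measure X} [IsFiniteMeasure μ]

/-- the simple functions, as a subspace of `L²(μ)` -/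
noncomputable def simpleSub (μ : Measure X) : Submodule ℂ (Lp ℂ 2 μ) :=
  Submodule.span ℂ (Set.range (fun s : Lp.simpleFunc ℂ 2 μ => (s : Lp ℂ 2 μ)))

lemma exists_of_mem_simpleSub {f : Lp ℂ 2 μ} (hf : f ∈ simpleSub μ) :
    ∃ s : Lp.simpleFunc ℂ 2 μ, (s : Lp ℂ 2 μ) = f := by
  unfold simpleSub at hf
  induction hf using Submodule.span_induction with
  | mem x hx =>
    obtain ⟨s, rfl⟩ := hx
    exact ⟨s, rfl⟩
  | zero => exact ⟨0, rfl⟩
  | add x y _ _ hx hy =>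
    obtain ⟨s, rfl⟩ := hx
    obtain ⟨t, rfl⟩ := hy
    exact ⟨s + t, rfl⟩
  | smul c x _ hx =>
    obtain ⟨s, rfl⟩ := hx
    exact ⟨(Lp.simpleFunc.smul (𝕜 := ℂ)).smul c s, rfl⟩

lemma simpleSub_dense (ξ : Lp ℂ 2 μ) (δ : ℝ) (hδ : 0 < δ) :
    ∃ s ∈ simpleSub μ, ‖ξ - s‖ < δ := by
  have hdense := Lp.simpleFunc.denseRange (E := ℂ) (μ := μ) (p := 2) (by norm_num)
  obtain ⟨s, hs⟩ := hdense.exists_dist_lt ξ hδ
  exact ⟨(s : Lp ℂ 2 μ), Submodule.subset_span ⟨s, rfl⟩, by rwa [dist_eq_norm] at hs⟩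

lemma simpleSub_infinite (hinf : ¬ FiniteDimensional ℂ (Lp ℂ 2 μ)) :
    ¬ FiniteDimensional ℂ (simpleSub μ) := by
  intro hfin
  apply hinf
  have hclosed : IsClosed ((simpleSub μ : Submodule ℂ (Lp ℂ 2 μ)) : Set (Lp ℂ 2 μ)) :=
    Submodule.closed_of_finiteDimensional _
  have hdense : Dense ((simpleSub μ : Submodule ℂ (Lp ℂ 2 μ)) : Set (Lp ℂ 2 μ)) := by
    rw [Metric.dense_iff]
    intro ξ ρ hρ
    obtain ⟨s, hs, hlt⟩ := simpleSub_dense ξ ρ hρ
    refine ⟨s, ?_, hs⟩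
    rw [Metric.mem_ball, dist_eq_norm, ← norm_neg, neg_sub]
    exact hlt
  have htop : simpleSub μ = ⊤ := by
    apply SetLike.coe_injective
    rw [Submodule.top_coe]
    exact hclosed.closure_eq ▸ hdense.closure_eq
  rw [htop] at hfin
  exact (Submodule.topEquiv : (⊤ : Submodule ℂ (Lp ℂ 2 μ)) ≃ₗ[ℂ] Lp ℂ 2 μ).finiteDimensional

/-- finitely many simple functions are constant on the cells of one finite measurable partition -/
lemma exists_cells_simple {m : ℕ} (sf : Fin m → Lp.simpleFunc ℂ 2 μ) :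
    ∃ (K : Type) (_ : Fintype K) (B : K → Set X), (∀ ρ, MeasurableSet (B ρ)) ∧
      (∀ ρ ρ', ρ ≠ ρ' → Disjoint (B ρ) (B ρ')) ∧ (⋃ ρ, B ρ) = Set.univ ∧
      ∀ l ρ, ∃ c : ℂ, indOp μ (B ρ) (sf l : Lp ℂ 2 μ) = c • indVec μ (B ρ) := by
  classical
  let σ : Fin m → SimpleFunc X ℂ := fun l => Lp.simpleFunc.toSimpleFunc (sf l)
  have hBm : ∀ ρ : (l : Fin m) → ((σ l).range : Finset ℂ),
      MeasurableSet (⋂ l : Fin m, (σ l) ⁻¹' {(ρ l : ℂ)}) :=
    fun ρ => MeasurableSet.iInter (fun l => (σ l).measurableSet_fiber _)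
  refine ⟨(l : Fin m) → ((σ l).range : Finset ℂ), inferInstance,
    fun ρ => ⋂ l : Fin m, (σ l) ⁻¹' {(ρ l : ℂ)}, hBm, ?_, ?_, ?_⟩
  · intro ρ ρ' hne
    obtain ⟨l, hl⟩ := Function.ne_iff.mp hne
    rw [Set.disjoint_left]
    intro x hx hx'
    apply hl
    have h1 := Set.mem_iInter.mp hx l
    have h2 := Set.mem_iInter.mp hx' l
    simp only [Set.mem_preimage, Set.mem_singleton_iff] at h1 h2
    exact Subtype.ext (h1.symm.trans h2)
  · apply Set.eq_univ_of_forall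
    intro x
    refine Set.mem_iUnion.mpr ⟨fun l => ⟨σ l x, SimpleFunc.mem_range_self _ x⟩, ?_⟩
    exact Set.mem_iInter.mpr (fun l => rfl)
  · intro l ρ
    refine ⟨(ρ l : ℂ), ?_⟩
    apply Lp.ext
    filter_upwards [indOp_acts (hBm ρ) (sf l : Lp ℂ 2 μ),
      Lp.simpleFunc.toSimpleFunc_eq_toFun (sf l),
      Lp.coeFn_smul (ρ l : ℂ) (indVec μ (⋂ l : Fin m, (σ l) ⁻¹' {(ρ l : ℂ)})),
      indVec_ae (μ := μ) (hBm ρ)] with x h1 h2 h3 h4
    rw [h1, h3, Pi.smul_apply, h4, ← h2]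
    by_cases hx : x ∈ ⋂ l : Fin m, (σ l) ⁻¹' {(ρ l : ℂ)}
    · have h5 := Set.mem_iInter.mp hx l
      simp only [Set.mem_preimage, Set.mem_singleton_iff] at h5
      rw [Set.indicator_of_mem hx, one_mul, smul_eq_mul, mul_one]
      exact h5
    · rw [Set.indicator_of_notMem hx, zero_mul, smul_zero]

lemma multAlg_one : (1 : Lp ℂ 2 μ →L[ℂ] Lp ℂ 2 μ) ∈ multAlg μ := by
  rw [← indOp_univ (μ := μ)]
  exact indOp_mem MeasurableSet.univ

lemma multAlg_neg (T : Lp ℂ 2 μ →L[ℂ] Lp ℂ 2 μ) (hT : T ∈ multAlg μ) : -T ∈ multAlg μ := by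
  have h := multAlg_smul (-1 : ℝ) T hT
  simpa using h

/-- the exact upper bound when `‖x‖ - x` has infinite rank on the simple functions -/
theorem soPavable_multAlg_exact_aux (hμ : HasSmallPartitions μ) (x : Lp ℂ 2 μ →L[ℂ] Lp ℂ 2 μ)
    (hx : IsSelfAdjoint x) (hx0 : x ≠ 0)
    (hy : ¬ FiniteDimensional ℂ ((simpleSub μ).map
      (((‖x‖ : ℂ) • (1 : Lp ℂ 2 μ →L[ℂ] Lp ℂ 2 μ) - x : Lp ℂ 2 μ →L[ℂ] Lp ℂ 2 μ) :
        Lp ℂ 2 μ →ₗ[ℂ] Lp ℂ 2 μ)))
    (r : ℕ) (hr : 0 < r) :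
    SoPavable Set.univ (multAlg μ) x (1 / (r : ℝ)) r := by
  classical
  intro F δ hδ
  have hrR : (0 : ℝ) < r := Nat.cast_pos.mpr hr
  -- approximate the vectors of `F` by simple functions
  have hex : ∀ ξ : Lp ℂ 2 μ, ∃ s ∈ simpleSub μ, ‖ξ - s‖ < δ / 2 :=
    fun ξ => simpleSub_dense ξ _ (half_pos hδ)
  choose sf hsfS hsf using hex
  -- move them into generic position
  obtain ⟨φ, hφS, hφψ, hφli⟩ := exists_generic (simpleSub μ) _ hy F.card
    (fun l => sf (F.equivFin.symm l : Lp ℂ 2 μ)) (fun l => hsfS _) (δ / 2) (half_pos hδ)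
  have hφs : ∀ l, ∃ s : Lp.simpleFunc ℂ 2 μ, (s : Lp ℂ 2 μ) = φ l :=
    fun l => exists_of_mem_simpleSub (hφS l)
  choose ss hss using hφs
  obtain ⟨K, hKfin, B, hBm, hBd, hBU, hBF⟩ := exists_cells_simple ss
  -- the span of the moved vectors
  have hVfin : FiniteDimensional ℂ (Submodule.span ℂ (Set.range φ)) :=
    FiniteDimensional.span_of_finite ℂ (Set.finite_range φ)
  have hV : ∀ u ∈ Submodule.span ℂ (Set.range φ), x u = (‖x‖ : ℂ) • u → u = 0 := by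
    intro u hu hxu
    obtain ⟨α, rfl⟩ := (Submodule.mem_span_range_iff_exists_fun ℂ).mp hu
    have h0 : ∑ l, α l • ((‖x‖ : ℂ) • (1 : Lp ℂ 2 μ →L[ℂ] Lp ℂ 2 μ) - x) (φ l) = 0 := by
      have h1 : ((‖x‖ : ℂ) • (1 : Lp ℂ 2 μ →L[ℂ] Lp ℂ 2 μ) - x) (∑ l, α l • φ l) = 0 := by
        rw [_root_.sub_apply, _root_.smul_apply, one_apply_eq_self, hxu, sub_self]
      rw [map_sum] at h1
      simpa only [map_smul] using h1
    have h2 := Fintype.linearIndependent_iff.mp hφli α h0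
    simp [h2]
  obtain ⟨t, ht0, htx, hgap⟩ := exists_gap x hx hx0 (Submodule.span ℂ (Set.range φ)) hV
  -- fineness of the cells
  have hηpos : 0 < t ^ 2 / (2 * ((Fintype.card K : ℝ) ^ 2 + 1) * (r : ℝ) * (‖x‖ ^ 2 + 1)) := by
    positivity
  obtain ⟨m, hmpos, hm⟩ := exists_pos_lower (fun ρ => μ.real (B ρ)) (fun ρ => measureReal_nonneg)
  obtain ⟨N, I, hIm, hId, hIU, hIη⟩ := hμ _ (mul_pos hηpos hmpos)
  have hEm : ∀ i : K × Fin N, MeasurableSet (B i.1 ∩ I i.2) := fun i => (hBm i.1).inter (hIm i.2)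
  have hEd : ∀ i j : K × Fin N, i ≠ j → Disjoint (B i.1 ∩ I i.2) (B j.1 ∩ I j.2) := by
    intro i j hij
    by_cases h1 : i.1 = j.1
    · have h2 : i.2 ≠ j.2 := fun h2 => hij (Prod.ext h1 h2)
      exact (hId _ _ h2).mono Set.inter_subset_right Set.inter_subset_right
    · exact (hBd _ _ h1).mono Set.inter_subset_left Set.inter_subset_left
  have hEU : (⋃ i : K × Fin N, B i.1 ∩ I i.2) = Set.univ := by
    apply Set.eq_univ_of_forall
    intro x
    have h1 : x ∈ ⋃ ρ, B ρ := by rw [hBU]; trivial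
    have h2 : x ∈ ⋃ k, I k := by rw [hIU]; trivial
    obtain ⟨ρ, hρ⟩ := Set.mem_iUnion.mp h1
    obtain ⟨k, hk⟩ := Set.mem_iUnion.mp h2
    exact Set.mem_iUnion.mpr ⟨(ρ, k), hρ, hk⟩
  have he : OrthoFam (fun i : K × Fin N => indOp μ (B i.1 ∩ I i.2)) :=
    orthoFam_indOp _ hEm hEd hEU
  have hv : ∀ ρ, nVec μ (B ρ) = 0 ∨ ‖nVec μ (B ρ)‖ = 1 := fun ρ => nVec_zero_or_norm (hBm ρ)
  have hJ : ∀ (i : K × Fin N) (ρ : K), i.1 ≠ ρ → indOp μ (B i.1 ∩ I i.2) (nVec μ (B ρ)) = 0 := by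
    intro i ρ hne
    rw [indOp_nVec (hEm i) (hBm ρ)]
    have h0 : B i.1 ∩ I i.2 ∩ B ρ = ∅ := by
      apply Set.eq_empty_of_forall_notMem
      intro x hx
      exact Set.disjoint_left.mp (hBd _ _ hne) hx.1.1 hx.2
    rw [h0, indVec_empty, smul_zero]
  have hηb : ∀ (i : K × Fin N) (ρ : K), ‖indOp μ (B i.1 ∩ I i.2) (nVec μ (B ρ))‖ ^ 2
      ≤ t ^ 2 / (2 * ((Fintype.card K : ℝ) ^ 2 + 1) * (r : ℝ) * (‖x‖ ^ 2 + 1)) := by
    intro i ρ
    rw [norm_sq_indOp_nVec (hEm i) (hBm ρ)]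
    rcases hm ρ with h0 | hmρ
    · rw [h0, div_zero]
      exact hηpos.le
    · have hpos : 0 < μ.real (B ρ) := lt_of_lt_of_le hmpos hmρ
      rw [div_le_iff₀ hpos]
      calc μ.real (B i.1 ∩ I i.2 ∩ B ρ) ≤ μ.real (I i.2) :=
            measureReal_mono (fun x hx => hx.1.2)
        _ ≤ _ * m := hIη _
        _ ≤ _ * μ.real (B ρ) := mul_le_mul_of_nonneg_left hmρ hηpos.le
  have hvo := ortho_of_supp he hJ
  -- the projection onto the span lies below the span projection of the cells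
  have hfixφ : ∀ l, spanProj (fun ρ => nVec μ (B ρ)) (φ l) = φ l := by
    intro l
    have h1 : φ l = ∑ ρ, indOp μ (B ρ) (φ l) := by
      have := congrArg (fun T : Lp ℂ 2 μ →L[ℂ] Lp ℂ 2 μ => T (φ l))
        (sum_indOp (μ := μ) B hBm hBd hBU)
      simpa using this.symm
    have h2 : ∀ ρ, spanProj (fun ρ => nVec μ (B ρ)) (indOp μ (B ρ) (φ l))
        = indOp μ (B ρ) (φ l) := by
      intro ρ
      obtain ⟨c, hc⟩ := hBF l ρ
      rw [hss l] at hc
      rw [hc, map_smul, indVec_eq_smul_nVec (hBm ρ), map_smul]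
      congr 2
      exact spanProj_apply_self hvo hv ρ
    conv_lhs => rw [h1]
    rw [map_sum]
    conv_rhs => rw [h1]
    exact Finset.sum_congr rfl (fun ρ _ => h2 ρ)
  have hfix : Submodule.span ℂ (Set.range φ)
      ≤ LinearMap.eqLocus ((spanProj (fun ρ => nVec μ (B ρ)) : Lp ℂ 2 μ →L[ℂ] Lp ℂ 2 μ) :
          Lp ℂ 2 μ →ₗ[ℂ] Lp ℂ 2 μ) LinearMap.id := by
    apply Submodule.span_le.mpr
    rintro _ ⟨l, rfl⟩
    exact hfixφ l
  have hQ : IsStarProjection (Submodule.span ℂ (Set.range φ)).starProjection :=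
    isStarProjection_starProjection
  have hQv : spanProj (fun ρ => nVec μ (B ρ)) * (Submodule.span ℂ (Set.range φ)).starProjection
      = (Submodule.span ℂ (Set.range φ)).starProjection := by
    apply ContinuousLinearMap.ext
    intro u
    rw [mul_apply_eq_comp]
    exact hfix (Submodule.starProjection_apply_mem _ u)
  have hηt : 2 * (t ^ 2 / (2 * ((Fintype.card K : ℝ) ^ 2 + 1) * (r : ℝ) * (‖x‖ ^ 2 + 1)))
      * (Fintype.card K : ℝ) ^ 2 * (r : ℝ) * ‖x‖ ^ 2 ≤ t ^ 2 := by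
    have hD : 0 < 2 * ((Fintype.card K : ℝ) ^ 2 + 1) * (r : ℝ) * (‖x‖ ^ 2 + 1) := by positivity
    have h1 : 2 * (t ^ 2 / (2 * ((Fintype.card K : ℝ) ^ 2 + 1) * (r : ℝ) * (‖x‖ ^ 2 + 1)))
        * (Fintype.card K : ℝ) ^ 2 * (r : ℝ) * ‖x‖ ^ 2
        = t ^ 2 * (2 * (Fintype.card K : ℝ) ^ 2 * (r : ℝ) * ‖x‖ ^ 2)
          / (2 * ((Fintype.card K : ℝ) ^ 2 + 1) * (r : ℝ) * (‖x‖ ^ 2 + 1)) := by
      field_simp
    rw [h1, div_le_iff₀ hD]
    apply mul_le_mul_of_nonneg_left _ (sq_nonneg t)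
    have hd : (0 : ℝ) ≤ (Fintype.card K : ℝ) ^ 2 := sq_nonneg _
    have hxx : (0 : ℝ) ≤ ‖x‖ ^ 2 := sq_nonneg _
    nlinarith [mul_nonneg hd hrR.le, mul_nonneg (mul_nonneg hd hrR.le) hxx,
      mul_nonneg hrR.le hxx, hrR.le]
  obtain ⟨p, a, hp, haA, hasa, hanorm, hmain⟩ :=
    exists_paving_exact (A := multAlg μ) (J := fun i : K × Fin N => i.1) multAlg_zero multAlg_add
      multAlg_smul multAlg_one he (fun i => indOp_mem (hEm i)) hv hJ _ hηpos.le hηb x hx r hr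
      (Submodule.span ℂ (Set.range φ)).starProjection hQ hQv t ht0.le htx hgap hηt
  refine ⟨p, a, (Submodule.span ℂ (Set.range φ)).starProjection, hp, haA, hasa, hanorm,
    Set.mem_univ _, hQ, ?_, hmain⟩
  intro ξ hξ
  have hen : (F.equivFin.symm (F.equivFin ⟨ξ, hξ⟩) : Lp ℂ 2 μ) = ξ := by
    rw [Equiv.symm_apply_apply]
  have h1 := hφψ (F.equivFin ⟨ξ, hξ⟩)
  rw [hen] at h1
  have h2 : ‖ξ - φ (F.equivFin ⟨ξ, hξ⟩)‖ < δ := by
    calc ‖ξ - φ (F.equivFin ⟨ξ, hξ⟩)‖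
        = ‖(ξ - sf ξ) - (φ (F.equivFin ⟨ξ, hξ⟩) - sf ξ)‖ := by congr 1; abel
      _ ≤ ‖ξ - sf ξ‖ + ‖φ (F.equivFin ⟨ξ, hξ⟩) - sf ξ‖ := norm_sub_le _ _
      _ < δ / 2 + δ / 2 := add_lt_add (hsf ξ) h1
      _ = δ := add_halves δ
  have hQφ : (Submodule.span ℂ (Set.range φ)).starProjection (φ (F.equivFin ⟨ξ, hξ⟩))
      = φ (F.equivFin ⟨ξ, hξ⟩) :=
    Submodule.starProjection_eq_self_iff.mpr (Submodule.subset_span ⟨_, rfl⟩)
  have h3 : (1 - (Submodule.span ℂ (Set.range φ)).starProjection) ξ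
      = (1 - (Submodule.span ℂ (Set.range φ)).starProjection)
          (ξ - φ (F.equivFin ⟨ξ, hξ⟩)) := by
    simp only [_root_.sub_apply, one_apply_eq_self, map_sub, hQφ]
    abel
  rw [h3]
  exact lt_of_le_of_lt (proj_norm_le hQ.one_sub _) h2

/-- **Exact upper bound.**  For a finite diffuse measure with `L²(μ)` infinite-dimensional, every
self-adjoint operator on `L²(μ)` is `(1/r, r)` so-pavable over `L^∞(μ)`. -/
theorem soPavable_multAlg_exact (hμ : HasSmallPartitions μ)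
    (hinf : ¬ FiniteDimensional ℂ (Lp ℂ 2 μ)) (x : Lp ℂ 2 μ →L[ℂ] Lp ℂ 2 μ)
    (hx : IsSelfAdjoint x) (r : ℕ) (hr : 0 < r) :
    SoPavable Set.univ (multAlg μ) x (1 / (r : ℝ)) r := by
  by_cases hx0 : x = 0
  · subst hx0
    exact soPavable_zero _ _ multAlg_zero multAlg_one (Set.mem_univ _) _ r hr
  rcases infinite_rank_dichotomy (simpleSub μ) (simpleSub_infinite hinf) x hx0 with h | h
  · exact soPavable_multAlg_exact_aux hμ x hx hx0 h r hr
  · apply soPavable_neg _ _ multAlg_neg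
    apply soPavable_multAlg_exact_aux hμ (-x) hx.neg (neg_ne_zero.mpr hx0) _ r hr
    rw [norm_neg, sub_neg_eq_add]
    exact h

/-- monotonicity of so-pavability in the tolerance -/
lemma SoPavable.mono {H : Type*} [NormedAddCommGroup H] [InnerProductSpace ℂ H] [CompleteSpace H]
    {M A : Set (H →L[ℂ] H)} {x : H →L[ℂ] H} {ε ε' : ℝ} {r : ℕ} (h : SoPavable M A x ε r)
    (hε : ε ≤ ε') : SoPavable M A x ε' r := by
  intro F δ hδ
  obtain ⟨p, a, q, hp, haA, hasa, hanorm, hqM, hq, hF, hmain⟩ := h F δ hδ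
  exact ⟨p, a, q, hp, haA, hasa, hanorm, hqM, hq, hF,
    hmain.trans (mul_le_mul_of_nonneg_right hε (norm_nonneg x))⟩

/-- **Upper bound, closed range.**  Every self-adjoint operator on `L²(μ)` is `(ε, r)` so-pavable
over `L^∞(μ)` as soon as `r ε ≥ 1`. -/
theorem soPavable_multAlg_of_one_le (hμ : HasSmallPartitions μ)
    (hinf : ¬ FiniteDimensional ℂ (Lp ℂ 2 μ)) (x : Lp ℂ 2 μ →L[ℂ] Lp ℂ 2 μ)
    (hx : IsSelfAdjoint x) (ε : ℝ) (r : ℕ) (hr : 1 ≤ (r : ℝ) * ε) :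
    SoPavable Set.univ (multAlg μ) x ε r := by
  have hrpos : 0 < r := by
    rcases Nat.eq_zero_or_pos r with h | h
    · subst h
      simp at hr
      linarith
    · exact h
  have hrR : (0 : ℝ) < r := Nat.cast_pos.mpr hrpos
  refine (soPavable_multAlg_exact hμ hinf x hx r hrpos).mono ?_
  rw [div_le_iff₀ hrR]
  linarith

end Vale.Agent.Lib.P078
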