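import Mathlib
import Vale.Agent.Lib.P078.UpperConcrete

/-!
# P078 helper: finite atomless measures have partitions into small pieces
-/

namespace Vale.Agent.Lib.P078

open MeasureTheory
open scoped ENNReal

theorem half_piece {X : Type*} [MeasurableSpace X] (mu : Measure X) [IsFiniteMeasure mu]
    (h : ∀ s : Set X, MeasurableSet s → 0 < mu s →
      ∃ t, MeasurableSet t ∧ t ⊆ s ∧ 0 < mu t ∧ mu t < mu s)
    (s : Set X) (hs : MeasurableSet s) (hpos : 0 < mu s) :
    ∃ t, MeasurableSet t ∧ t ⊆ s ∧ 0 < mu t ∧ mu t ≤ mu s * 2⁻¹ := by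
  obtain ⟨t, ht, hts, htpos, htlt⟩ := h s hs hpos
  have hsum : mu t + mu (s \ t) = mu s := by
    have := measure_inter_add_sdiff (μ := mu) s ht
    rwa [Set.inter_eq_self_of_subset_right hts] at this
  have hdpos : 0 < mu (s \ t) := by
    rw [pos_iff_ne_zero]
    intro h0
    rw [h0, add_zero] at hsum
    exact htlt.ne hsum
  by_cases hc : mu t ≤ mu s * 2⁻¹
  · exact ⟨t, ht, hts, htpos, hc⟩
  · refine ⟨s \ t, hs.diff ht, Set.sdiff_subset, hdpos, ?_⟩
    by_contra hc2
    have h1 : mu s * 2⁻¹ < mu t := not_le.1 hc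
    have h2 : mu s * 2⁻¹ < mu (s \ t) := not_le.1 hc2
    have h3 := ENNReal.add_lt_add h1 h2
    rw [hsum, ← mul_add, ENNReal.inv_two_add_inv_two, mul_one] at h3
    exact lt_irrefl _ h3

theorem small_piece {X : Type*} [MeasurableSpace X] (mu : Measure X) [IsFiniteMeasure mu]
    (h : ∀ s : Set X, MeasurableSet s → 0 < mu s →
      ∃ t, MeasurableSet t ∧ t ⊆ s ∧ 0 < mu t ∧ mu t < mu s)
    (s : Set X) (hs : MeasurableSet s) (hpos : 0 < mu s) (ε : ℝ≥0∞) (hε : 0 < ε) :
    ∃ t, MeasurableSet t ∧ t ⊆ s ∧ 0 < mu t ∧ mu t ≤ ε := by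
  have key : ∀ n : ℕ, ∃ t, MeasurableSet t ∧ t ⊆ s ∧ 0 < mu t ∧
      mu t ≤ mu s * (2⁻¹ : ℝ≥0∞) ^ n := by
    intro n
    induction n with
    | zero => exact ⟨s, hs, subset_rfl, hpos, by simp⟩
    | succ n ih =>
      obtain ⟨t, ht, hts, htpos, hle⟩ := ih
      obtain ⟨t', ht', ht't, ht'pos, hle'⟩ := half_piece mu h t ht htpos
      refine ⟨t', ht', ht't.trans hts, ht'pos, ?_⟩
      calc mu t' ≤ mu t * 2⁻¹ := hle'
        _ ≤ mu s * (2⁻¹ : ℝ≥0∞) ^ n * 2⁻¹ := by gcongr
        _ = mu s * (2⁻¹ : ℝ≥0∞) ^ (n + 1) := by rw [pow_succ, mul_assoc]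
  have hfin : mu s ≠ ⊤ := measure_ne_top mu s
  have hne : ε / mu s ≠ 0 := by
    simp [ENNReal.div_eq_zero_iff, hε.ne', hfin]
  obtain ⟨n, hn⟩ := ENNReal.exists_inv_two_pow_lt hne
  obtain ⟨t, ht, hts, htpos, hle⟩ := key n
  refine ⟨t, ht, hts, htpos, hle.trans ?_⟩
  have h1 : mu s * (2⁻¹ : ℝ≥0∞) ^ n ≤ mu s * (ε / mu s) := by gcongr
  have h2 : mu s * (ε / mu s) = ε := ENNReal.mul_div_cancel hpos.ne' hfin
  rw [h2] at h1
  exact h1

/-- A finite measure without atoms (every measurable set of positive measure has a measurable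
subset of strictly smaller positive measure) admits finite measurable partitions into pieces
of arbitrarily small measure. -/
theorem hasSmallPartitions_of_atomless {X : Type*} [MeasurableSpace X]
    (mu : MeasureTheory.Measure X) [MeasureTheory.IsFiniteMeasure mu]
    (h : ∀ s : Set X, MeasurableSet s → 0 < mu s →
      ∃ t, MeasurableSet t ∧ t ⊆ s ∧ 0 < mu t ∧ mu t < mu s) :
    HasSmallPartitions mu := by
  intro η hη
  set ε : ℝ≥0∞ := ENNReal.ofReal η with hε
  have hεpos : 0 < ε := ENNReal.ofReal_pos.2 hη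
  have hεfin : ε ≠ ⊤ := ENNReal.ofReal_ne_top
  -- the supremum of the measures of the small measurable subsets of `R`
  let M : Set X → ℝ≥0∞ := fun R =>
    ⨆ t : {t : Set X // MeasurableSet t ∧ t ⊆ R ∧ mu t ≤ ε}, mu t.1
  have hM_le : ∀ R, M R ≤ ε := fun R => iSup_le fun t => t.2.2.2
  have hM_ge : ∀ R t, MeasurableSet t → t ⊆ R → mu t ≤ ε → mu t ≤ M R :=
    fun R t h1 h2 h3 =>
      le_iSup (fun t : {t : Set X // MeasurableSet t ∧ t ⊆ R ∧ mu t ≤ ε} => mu t.1)
        ⟨t, h1, h2, h3⟩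
  have hpick : ∀ R : Set X, ∃ t, MeasurableSet t ∧ t ⊆ R ∧ mu t ≤ ε ∧ M R ≤ 2 * mu t := by
    intro R
    by_cases h0 : M R = 0
    · exact ⟨∅, MeasurableSet.empty, Set.empty_subset _, by simp, by simp [h0]⟩
    · have hfin : M R ≠ ⊤ := ne_top_of_le_ne_top hεfin (hM_le R)
      have hlt : M R / 2 < M R := ENNReal.half_lt_self h0 hfin
      obtain ⟨t, ht⟩ := lt_iSup_iff.1 hlt
      refine ⟨t.1, t.2.1, t.2.2.1, t.2.2.2, ?_⟩
      have h2 : M R = 2 * (M R / 2) :=
        (ENNReal.mul_div_cancel (by norm_num) (by norm_num)).symm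
      rw [h2]
      gcongr
  choose pick hp1 hp2 hp3 hp4 using hpick
  let Rs : ℕ → Set X := fun n => Nat.rec Set.univ (fun _ R => R \ pick R) n
  have hRsS : ∀ n, Rs (n + 1) = Rs n \ pick (Rs n) := fun n => rfl
  have hRmeas : ∀ n, MeasurableSet (Rs n) := by
    intro n
    induction n with
    | zero => exact MeasurableSet.univ
    | succ n ih => rw [hRsS]; exact ih.diff (hp1 _)
  have hRanti : Antitone Rs :=
    antitone_nat_of_succ_le (fun n => by rw [hRsS]; exact Set.sdiff_subset)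
  let ts : ℕ → Set X := fun n => pick (Rs n)
  have hdisj_lt : ∀ i j, i < j → Disjoint (ts i) (ts j) := by
    intro i j hlt
    have h1 : ts j ⊆ Rs (i + 1) := (hp2 (Rs j)).trans (hRanti hlt)
    rw [hRsS] at h1
    exact Set.disjoint_left.2 fun x hxi hxj => (h1 hxj).2 hxi
  have hdisj : Pairwise (Function.onFun Disjoint ts) := by
    intro i j hij
    rcases lt_or_gt_of_ne hij with hlt | hlt
    · exact hdisj_lt i j hlt
    · exact (hdisj_lt j i hlt).symm
  have hdisjR : ∀ k n, k < n → Disjoint (ts k) (Rs n) := by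
    intro k n hkn
    have h1 : Rs n ⊆ Rs (k + 1) := hRanti hkn
    rw [hRsS] at h1
    exact Set.disjoint_left.2 fun x hxk hxn => (h1 hxn).2 hxk
  have htsum : ∑' n, mu (ts n) ≠ ⊤ := by
    rw [← measure_iUnion hdisj (fun n => hp1 _)]
    exact measure_ne_top mu _
  have htend : Filter.Tendsto (fun n => mu (ts n)) Filter.atTop (nhds 0) :=
    ENNReal.tendsto_atTop_zero_of_tsum_ne_top htsum
  have hinf : mu (⋂ n, Rs n) = 0 := by
    by_contra hne
    have hpos : 0 < mu (⋂ n, Rs n) := pos_iff_ne_zero.2 hne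
    obtain ⟨t, ht, hts, htpos, htle⟩ :=
      small_piece mu h _ (MeasurableSet.iInter hRmeas) hpos ε hεpos
    have hle : ∀ n, mu t ≤ 2 * mu (ts n) := fun n =>
      (hM_ge (Rs n) t ht (hts.trans (Set.iInter_subset _ n)) htle).trans (hp4 (Rs n))
    have htend2 : Filter.Tendsto (fun n => 2 * mu (ts n)) Filter.atTop (nhds 0) := by
      have h3 := ENNReal.Tendsto.const_mul (a := (2 : ℝ≥0∞)) htend
        (Or.inr (by norm_num : (2 : ℝ≥0∞) ≠ ⊤))
      simpa using h3
    have h4 : mu t ≤ 0 := ge_of_tendsto' htend2 hle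
    exact lt_irrefl _ (lt_of_lt_of_le htpos h4)
  have htendR : Filter.Tendsto (fun n => mu (Rs n)) Filter.atTop (nhds (mu (⋂ n, Rs n))) :=
    tendsto_measure_iInter_atTop (fun n => (hRmeas n).nullMeasurableSet) hRanti
      ⟨0, measure_ne_top mu _⟩
  rw [hinf] at htendR
  obtain ⟨n, hn⟩ : ∃ n, mu (Rs n) ≤ ε := by
    obtain ⟨n, hn⟩ := (htendR.eventually (gt_mem_nhds hεpos)).exists
    exact ⟨n, hn.le⟩
  have hcover : ∀ m x, x ∈ Rs m ∨ ∃ k, k < m ∧ x ∈ ts k := by
    intro m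
    induction m with
    | zero => intro x; left; trivial
    | succ m ih =>
      intro x
      rcases ih x with hx | ⟨k, hk, hx⟩
      · by_cases hxt : x ∈ ts m
        · right; exact ⟨m, Nat.lt_succ_self m, hxt⟩
        · left; rw [hRsS]; exact ⟨hx, hxt⟩
      · right; exact ⟨k, Nat.lt_succ_of_lt hk, hx⟩
  refine ⟨n + 1, fun k => if (k : ℕ) < n then ts k else Rs n, ?_, ?_, ?_, ?_⟩
  · intro k
    by_cases hk : (k : ℕ) < n
    · simp only [hk, if_true]; exact hp1 _
    · simp only [hk, if_false]; exact hRmeas n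
  · intro k l hkl
    have hkl' : (k : ℕ) ≠ (l : ℕ) := fun e => hkl (Fin.ext e)
    by_cases hk : (k : ℕ) < n <;> by_cases hl : (l : ℕ) < n
    · simp only [hk, hl, if_true]; exact hdisj hkl'
    · simp only [hk, hl, if_true, if_false]; exact hdisjR k n hk
    · simp only [hk, hl, if_true, if_false]; exact (hdisjR l n hl).symm
    · exfalso
      have h1 := k.2
      have h2 := l.2
      omega
  · ext x
    simp only [Set.mem_iUnion, Set.mem_univ, iff_true]
    rcases hcover n x with hx | ⟨k, hk, hx⟩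
    · refine ⟨⟨n, Nat.lt_succ_self n⟩, ?_⟩
      simp only [lt_irrefl, if_false]; exact hx
    · refine ⟨⟨k, Nat.lt_succ_of_lt hk⟩, ?_⟩
      simp only [hk, if_true]; exact hx
  · intro k
    by_cases hk : (k : ℕ) < n
    · simp only [hk, if_true]
      exact ENNReal.toReal_le_of_le_ofReal hη.le (hp3 _)
    · simp only [hk, if_false]
      exact ENNReal.toReal_le_of_le_ofReal hη.le hn

end Vale.Agent.Lib.P078
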