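import Mathlib
import Vale.Agent.Lib.P078.Defs
import Vale.Agent.Lib.P078.Proj
import Vale.Agent.Lib.P078.Lower
import Vale.Agent.Lib.P078.Mult
import Vale.Agent.Lib.P078.UpperConcrete

/-!
# P078 helper: the unit interval with Lebesgue measure
-/

namespace Vale.Agent.Lib.P078

open MeasureTheory
open scoped InnerProductSpace ENNReal

set_option linter.unusedSectionVars false

lemma hasSmallPartitions_unit : HasSmallPartitions (volume.restrict (Set.Ioc (0 : ℝ) 1)) := by
  intro η hη
  obtain ⟨n, hn⟩ := exists_nat_gt (1 / η)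
  have hnR : (0 : ℝ) < n := lt_trans (by positivity) hn
  have hnpos : 0 < n := by exact_mod_cast hnR
  have h1n : 1 / (n : ℝ) ≤ η := by
    rw [div_le_iff₀ hnR]
    rw [div_lt_iff₀ hη] at hn
    linarith
  classical
  let g : ℝ → ℕ := fun x => if x ∈ Set.Ioc (0 : ℝ) 1 then ⌈(n : ℝ) * x⌉₊ - 1 else n
  have hg : Measurable g := by
    apply Measurable.ite measurableSet_Ioc _ measurable_const
    exact (measurable_from_nat (f := fun j : ℕ => j - 1)).comp
      (Nat.measurable_ceil.comp (measurable_const.mul measurable_id))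
  have hceil_le : ∀ x ∈ Set.Ioc (0 : ℝ) 1, ⌈(n : ℝ) * x⌉₊ ≤ n := by
    intro x hx
    rw [Nat.ceil_le]
    calc (n : ℝ) * x ≤ n * 1 := mul_le_mul_of_nonneg_left hx.2 hnR.le
      _ = n := mul_one _
  have hgle : ∀ x, g x < n + 1 := by
    intro x
    by_cases hx : x ∈ Set.Ioc (0 : ℝ) 1
    · have := hceil_le x hx
      simp only [g, if_pos hx]
      omega
    · simp only [g, if_neg hx]
      omega
  refine ⟨n + 1, fun k => g ⁻¹' {k.val}, fun k => hg (measurableSet_singleton _), ?_, ?_, ?_⟩
  · intro k l hkl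
    apply Disjoint.preimage
    rw [Set.disjoint_singleton]
    exact fun h => hkl (Fin.ext h)
  · apply Set.eq_univ_of_forall
    intro x
    exact Set.mem_iUnion.mpr ⟨⟨g x, hgle x⟩, rfl⟩
  · intro k
    by_cases hk : k.val < n
    · have hsub : g ⁻¹' {k.val} ⊆ Set.Ioc ((k.val : ℝ) / n) (((k.val : ℝ) + 1) / n) := by
        intro x hx
        simp only [Set.mem_preimage, Set.mem_singleton_iff] at hx
        by_cases hx01 : x ∈ Set.Ioc (0 : ℝ) 1
        · simp only [g, if_pos hx01] at hx
          have hpos : 0 < ⌈(n : ℝ) * x⌉₊ := Nat.ceil_pos.mpr (mul_pos hnR hx01.1)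
          have hceil : ⌈(n : ℝ) * x⌉₊ = k.val + 1 := by omega
          have h2 := (Nat.ceil_eq_iff (by omega : k.val + 1 ≠ 0)).mp hceil
          simp only [Nat.add_sub_cancel] at h2
          constructor
          · rw [div_lt_iff₀ hnR]
            linarith [h2.1]
          · rw [le_div_iff₀ hnR]
            have h3 := h2.2
            push_cast at h3
            linarith
        · simp only [g, if_neg hx01] at hx
          omega
      calc (volume.restrict (Set.Ioc (0 : ℝ) 1)).real (g ⁻¹' {k.val})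
          ≤ (volume.restrict (Set.Ioc (0 : ℝ) 1)).real
              (Set.Ioc ((k.val : ℝ) / n) (((k.val : ℝ) + 1) / n)) := measureReal_mono hsub
        _ ≤ volume.real (Set.Ioc ((k.val : ℝ) / n) (((k.val : ℝ) + 1) / n)) := by
            apply ENNReal.toReal_mono _ (Measure.restrict_apply_le _ _)
            rw [Real.volume_Ioc]
            exact ENNReal.ofReal_ne_top
        _ = 1 / n := by
            rw [Real.volume_real_Ioc]
            have : ((k.val : ℝ) + 1) / n - (k.val : ℝ) / n = 1 / n := by ring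
            rw [this]
            exact max_eq_left (by positivity)
        _ ≤ η := h1n
    · have hsub : g ⁻¹' {k.val} ⊆ (Set.Ioc (0 : ℝ) 1)ᶜ := by
        intro x hx hx01
        simp only [Set.mem_preimage, Set.mem_singleton_iff] at hx
        simp only [g, if_pos hx01] at hx
        have := hceil_le x hx01
        omega
      have h0 : (volume.restrict (Set.Ioc (0 : ℝ) 1)) (g ⁻¹' {k.val}) = 0 := by
        apply measure_mono_null hsub
        rw [Measure.restrict_apply measurableSet_Ioc.compl]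
        simp
      rw [Measure.real, h0]
      simpa using hη.le

/-- the exponential `t ↦ exp (2 π i n t)` -/
noncomputable def expFn (n : ℕ) (t : ℝ) : ℂ :=
  Complex.exp (2 * Real.pi * Complex.I * n * t)

lemma norm_expFn (n : ℕ) (t : ℝ) : ‖expFn n t‖ = 1 := by
  rw [expFn, Complex.norm_exp]
  have : (2 * (Real.pi : ℂ) * Complex.I * (n : ℂ) * (t : ℂ)).re = 0 := by
    have h : 2 * (Real.pi : ℂ) * Complex.I * (n : ℂ) * (t : ℂ)
        = ((2 * Real.pi * n * t : ℝ) : ℂ) * Complex.I := by
      push_cast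
      ring
    rw [h, Complex.re_ofReal_mul, Complex.I_re, mul_zero]
  rw [this, Real.exp_zero]

lemma continuous_expFn (n : ℕ) : Continuous (expFn n) := by
  unfold expFn
  fun_prop

lemma memLp_expFn (n : ℕ) (μ : Measure ℝ) : MemLp (expFn n) ⊤ μ :=
  memLp_top_of_bound (continuous_expFn n).aestronglyMeasurable 1
    (Filter.Eventually.of_forall (fun t => (norm_expFn n t).le))

section general

variable {X : Type*} [MeasurableSpace X] {μ : Measure X}

lemma inner_acts_unimodular {T : Lp ℂ 2 μ →L[ℂ] Lp ℂ 2 μ} {φ : X → ℂ} (hT : ActsBy T φ)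
    (u : Lp ℂ 2 μ) (hu : ∀ᵐ x ∂μ, ‖u x‖ = 1) : ⟪u, T u⟫_ℂ = ∫ x, φ x ∂μ := by
  rw [hT.inner]
  apply integral_congr_ae
  filter_upwards [hu] with x hx
  have h1 : (starRingEnd ℂ) (u x) * u x = 1 := by
    rw [Complex.conj_mul', hx]
    simp
  calc (starRingEnd ℂ) (u x) * (φ x * u x) = φ x * ((starRingEnd ℂ) (u x) * u x) := by ring
    _ = φ x := by rw [h1, mul_one]

end general

/-- the exponentials as vectors of `L²(0,1]` -/
noncomputable def expVec (n : ℕ) : Lp ℂ 2 (volume.restrict (Set.Ioc (0 : ℝ) 1)) :=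
  mulOp (volume.restrict (Set.Ioc (0 : ℝ) 1)) (expFn n) (oneVec (volume.restrict (Set.Ioc (0 : ℝ) 1)))

lemma expVec_ae (n : ℕ) : expVec n =ᵐ[volume.restrict (Set.Ioc (0 : ℝ) 1)] expFn n := by
  filter_upwards [mulOp_acts (memLp_expFn n (volume.restrict (Set.Ioc (0 : ℝ) 1)))
      (oneVec (volume.restrict (Set.Ioc (0 : ℝ) 1))),
    oneVec_ae (μ := volume.restrict (Set.Ioc (0 : ℝ) 1))] with x h1 h2
  rw [expVec, h1, h2, mul_one]

lemma orthonormal_expVec : Orthonormal ℂ expVec := by
  rw [orthonormal_iff_ite]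
  intro n m
  rw [L2.inner_def]
  have h1 : ∫ x, ⟪(expVec n : ℝ → ℂ) x, (expVec m : ℝ → ℂ) x⟫_ℂ
        ∂(volume.restrict (Set.Ioc (0 : ℝ) 1))
      = ∫ x, Complex.exp ((2 * Real.pi * Complex.I * ((m : ℂ) - n)) * x)
        ∂(volume.restrict (Set.Ioc (0 : ℝ) 1)) := by
    apply integral_congr_ae
    filter_upwards [expVec_ae n, expVec_ae m] with x h1 h2
    rw [h1, h2, RCLike.inner_apply, expFn, expFn, ← Complex.exp_conj, ← Complex.exp_add]
    congr 1
    simp only [map_mul, Complex.conj_ofReal, Complex.conj_I, map_ofNat, Complex.conj_natCast]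
    ring
  rw [h1, ← intervalIntegral.integral_of_le zero_le_one]
  by_cases hnm : n = m
  · subst hnm
    simp
  · rw [if_neg hnm]
    have hc : 2 * (Real.pi : ℂ) * Complex.I * ((m : ℂ) - n) ≠ 0 := by
      have h2 : (m : ℂ) - n ≠ 0 := by
        rw [sub_ne_zero]
        intro h
        apply hnm
        have h' : (n : ℂ) = (m : ℂ) := h.symm
        exact_mod_cast h'
      have h3 : (Real.pi : ℂ) ≠ 0 := by exact_mod_cast Real.pi_ne_zero
      simp [h2, h3, Complex.I_ne_zero]
    rw [integral_exp_mul_complex hc]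
    have h4 : Complex.exp (2 * (Real.pi : ℂ) * Complex.I * ((m : ℂ) - n) * ((1 : ℝ) : ℂ)) = 1 := by
      have h5 := Complex.exp_int_mul_two_pi_mul_I ((m : ℤ) - n)
      rw [← h5]
      congr 1
      push_cast
      ring
    rw [h4]
    simp

lemma norm_oneVec_unit : ‖oneVec (volume.restrict (Set.Ioc (0 : ℝ) 1))‖ = 1 := by
  unfold oneVec
  rw [norm_indicatorConstLp (by norm_num) (by norm_num)]
  simp [Measure.real]

/-- **Lower bound on the unit interval.** -/
theorem not_soPavable_unit (ε : ℝ) (hε : 0 < ε) (r : ℕ) (hr : (r : ℝ) * ε < 1) :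
    ¬ SoPavable Set.univ (multAlg (volume.restrict (Set.Ioc (0 : ℝ) 1)))
      (symOp (oneVec (volume.restrict (Set.Ioc (0 : ℝ) 1)))) ε r := by
  apply not_soPavable Set.univ (multAlg (volume.restrict (Set.Ioc (0 : ℝ) 1)))
    (oneVec (volume.restrict (Set.Ioc (0 : ℝ) 1))) norm_oneVec_unit _ ε hε r hr
  intro N
  refine ⟨fun i : Fin N => expVec i.val, orthonormal_expVec.comp _ Fin.val_injective, ?_⟩
  intro a ha i
  obtain ⟨φ, hφ, hact⟩ := ha
  have hact' : ActsBy a φ := hact
  rw [inner_acts_unimodular hact' (expVec i.val), inner_acts_unimodular hact' (oneVec _)]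
  · filter_upwards [oneVec_ae (μ := volume.restrict (Set.Ioc (0 : ℝ) 1))] with x hx
    rw [hx, norm_one]
  · filter_upwards [expVec_ae i.val] with x hx
    rw [hx, norm_expFn]

end Vale.Agent.Lib.P078
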